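import Vale.Agent.P249.Every.Defs
import Vale.Agent.P249.Sampling

/-!
Compression of sparse vectors by polynomial hashing and of flat vectors by sampling.
-/

namespace Vale.Agent.P249.Every

open Finset

private theorem rpow_inv_mul_abs_sub {p c : ℝ} (hp : 0 < p) (hc : 0 ≤ c) (a b : ℝ) :
    |c ^ p⁻¹ * a - c ^ p⁻¹ * b| ^ p = c * |a - b| ^ p := by
  rw [← mul_sub, abs_mul, abs_of_nonneg (Real.rpow_nonneg hc _),
    Real.mul_rpow (Real.rpow_nonneg hc _) (abs_nonneg _), Real.rpow_inv_rpow hc hp.ne']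

/-- Finitely many sparse vectors are compressed by polynomial hashing. -/
theorem exists_hash {p η : ℝ} (hp : 1 ≤ p) (hη : 0 < η) (hη1 : η ≤ 1) (k : ℕ) :
    ∃ C : ℝ, 0 < C ∧
    ∀ (n B : ℕ) (ι : Type) [Fintype ι], Fintype.card ι ≤ (2 * B + 1) ^ k → ∀ h : Fin n → ι → ℝ,
    (∀ i, ∀ S : Finset ι, (∀ z ∈ S, h i z ≠ 0) → S.card ≤ B) →
    ∃ d : ℕ, (d : ℝ) ≤ C * (2 * (B : ℝ) + 1) ^ (2 * (p + 2)) ∧ ∃ f : Fin n → Fin d → ℝ, ∀ i j,
      |(∑ s, |f i s - f j s| ^ p) - ∑ z, |h i z - h j z| ^ p| ≤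
        η * ∑ z, |h i z - h j z| ^ p := by
  classical
  have hp0 : 0 < p := by linarith
  have hC0 : 1 ≤ ((k : ℝ) + 1) / η := by
    rw [le_div_iff₀ hη]; linarith [Nat.cast_nonneg (α := ℝ) k]
  set C0 := ((k : ℝ) + 1) / η with hC0def
  refine ⟨4 * (C0 + 1) ^ 2, by positivity, fun n B ι _ hι h hsp => ?_⟩
  set R : ℝ := 2 * (B : ℝ) + 1 with hR
  have hR1 : 1 ≤ R := by have := Nat.cast_nonneg (α := ℝ) B; linarith
  set x := R ^ (p + 2) with hx
  have hRx : R ≤ x := by
    simpa using Real.rpow_le_rpow_of_exponent_le hR1 (show (1 : ℝ) ≤ p + 2 by linarith)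
  have hx0 : 0 < x := by linarith
  set M := ⌈C0 * x⌉₊ with hM
  have hCx : C0 * x ≤ M := Nat.le_ceil _
  have hMpos : M ≠ 0 := by
    intro h0
    rw [h0, Nat.cast_zero] at hCx
    nlinarith
  obtain ⟨q, hq, hMq, hq2⟩ := Nat.exists_prime_lt_and_le_two_mul M hMpos
  have := Fact.mk hq
  have hqR : (2 * B + 1 : ℕ) ≤ q := by
    have h1 : R ≤ (q : ℝ) := by
      have : (M : ℝ) ≤ q := by exact_mod_cast hMq.le
      nlinarith
    have : ((2 * B + 1 : ℕ) : ℝ) ≤ q := by push_cast; linarith
    exact_mod_cast this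
  -- the polynomials
  have hcard : Fintype.card ι ≤ Fintype.card (Fin (k + 1) → ZMod q) := by
    rw [Fintype.card_fun, ZMod.card, Fintype.card_fin]
    exact hι.trans ((Nat.pow_le_pow_left hqR k).trans
      (Nat.pow_le_pow_right hq.pos (Nat.le_succ k)))
  obtain ⟨e⟩ := Function.Embedding.nonempty_of_card_le hcard
  let P : ι → Polynomial (ZMod q) := fun z => ∑ l : Fin (k + 1),
    Polynomial.C (e z l) * Polynomial.X ^ (l : ℕ)
  have hdeg : ∀ z, (P z).natDegree ≤ k := fun z =>
    Polynomial.natDegree_sum_le_of_forall_le _ _ fun l _ =>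
      (Polynomial.natDegree_C_mul_X_pow_le _ _).trans (Nat.lt_succ_iff.1 l.2)
  have hcoeff : ∀ z (l : Fin (k + 1)), (P z).coeff l = e z l := by
    intro z l
    simp only [P, Polynomial.finsetSum_coeff, Polynomial.coeff_C_mul_X_pow]
    rw [Finset.sum_eq_single l]
    · simp
    · intro b _ hb
      rw [if_neg (fun h => hb (Fin.ext h.symm))]
    · simp
  have hPinj : Function.Injective P := fun z w hzw => e.injective <| funext fun l => by
    rw [← hcoeff z l, ← hcoeff w l, hzw]
  -- the map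
  let bkt : ZMod q × ZMod q → Finset ι := fun s =>
    univ.filter fun z => (P z).eval s.1 = s.2
  let g : Fin n → ZMod q × ZMod q → ℝ := fun i s =>
    ((q : ℝ)⁻¹) ^ p⁻¹ * ∑ z ∈ bkt s, h i z
  refine ⟨Fintype.card (ZMod q × ZMod q), ?_,
    fun i => fun s => g i ((Fintype.equivFin _).symm s), fun i j => ?_⟩
  · rw [Fintype.card_prod, ZMod.card, Nat.cast_mul]
    have h1 : (M : ℝ) < C0 * x + 1 := Nat.ceil_lt_add_one (by positivity)
    have h2 : (q : ℝ) ≤ 2 * (M : ℝ) := by exact_mod_cast hq2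
    have h3 : (q : ℝ) ≤ 2 * (C0 + 1) * x := by nlinarith
    have hx2 : R ^ (2 * (p + 2)) = x * x := by
      rw [hx, ← Real.rpow_add (by linarith), two_mul (p + 2)]
    rw [hx2]
    calc (q : ℝ) * q ≤ (2 * (C0 + 1) * x) * (2 * (C0 + 1) * x) :=
          mul_le_mul h3 h3 (Nat.cast_nonneg q) (by positivity)
      _ = _ := by ring
  set D : ι → ℝ := fun z => h i z - h j z with hD
  set T := ∑ z, |D z| ^ p with hT
  have hT0 : 0 ≤ T := sum_nonneg fun z _ => Real.rpow_nonneg (abs_nonneg _) _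
  let U : Finset ι := univ.filter fun z => D z ≠ 0
  have hU : U.card ≤ 2 * B := by
    have hsub : U ⊆ univ.filter (fun z => h i z ≠ 0) ∪ univ.filter (fun z => h j z ≠ 0) := by
      intro z hz
      simp only [U, mem_filter, mem_univ, true_and, hD] at hz
      simp only [mem_union, mem_filter, mem_univ, true_and]
      by_contra hc
      push Not at hc
      simp [hc.1, hc.2] at hz
    refine (card_le_card hsub).trans ((card_union_le _ _).trans ?_)
    have := hsp i (univ.filter fun z => h i z ≠ 0) (fun z hz => (mem_filter.1 hz).2)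
    have := hsp j (univ.filter fun z => h j z ≠ 0) (fun z hz => (mem_filter.1 hz).2)
    omega
  let S : ZMod q → ℝ := fun a => ∑ b, |∑ z ∈ bkt (a, b), D z| ^ p
  have hsum : (∑ s, |g i ((Fintype.equivFin _).symm s) - g j ((Fintype.equivFin _).symm s)| ^ p)
      = (q : ℝ)⁻¹ * ∑ a, S a := by
    rw [Equiv.sum_comp (Fintype.equivFin (ZMod q × ZMod q)).symm (fun s => |g i s - g j s| ^ p),
      Fintype.sum_prod_type, mul_sum]
    refine sum_congr rfl fun a _ => ?_
    simp only [S, mul_sum]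
    refine sum_congr rfl fun b _ => ?_
    simp only [g, rpow_inv_mul_abs_sub hp0 (inv_nonneg.2 (Nat.cast_nonneg q)), hD,
      sum_sub_distrib]
  have hbU : ∀ s, ∑ z ∈ bkt s, D z = ∑ z ∈ U.filter (fun z => (P z).eval s.1 = s.2), D z := by
    intro s
    have e1 : U.filter (fun z => (P z).eval s.1 = s.2) = (bkt s).filter (fun z => D z ≠ 0) := by
      ext z; simp [U, bkt, and_comm]
    rw [e1, sum_filter_ne_zero]
  have hTU : T = ∑ z ∈ U, |D z| ^ p := by
    rw [hT]
    symm
    refine sum_subset (subset_univ _) fun z _ hz => ?_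
    simp only [U, mem_filter, mem_univ, true_and, ne_eq, not_not] at hz
    simp [hz, Real.zero_rpow hp0.ne']
  have hfib : ∀ a, T = ∑ b, ∑ z ∈ U.filter (fun z => (P z).eval a = b), |D z| ^ p := by
    intro a; rw [hTU, sum_fiberwise]
  have hSle : ∀ a, S a ≤ R ^ p * T := by
    intro a
    rw [hfib a, mul_sum]
    refine sum_le_sum fun b _ => ?_
    rw [hbU]
    set W := U.filter (fun z => (P z).eval (a, b).1 = (a, b).2)
    calc |∑ z ∈ W, D z| ^ p ≤ (∑ z ∈ W, |D z|) ^ p :=
          Real.rpow_le_rpow (abs_nonneg _) (abs_sum_le_sum_abs _ _) hp0.le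
      _ ≤ (W.card : ℝ) ^ (p - 1) * ∑ z ∈ W, |D z| ^ p :=
          Real.rpow_sum_le_const_mul_sum_rpow W _ hp
      _ ≤ R ^ p * ∑ z ∈ W, |D z| ^ p := by
          refine mul_le_mul_of_nonneg_right ?_
            (sum_nonneg fun z _ => Real.rpow_nonneg (abs_nonneg _) _)
          have hW : (W.card : ℝ) ≤ R := by
            have h1 : (W.card : ℝ) ≤ (2 * B : ℕ) := by
              exact_mod_cast (card_filter_le _ _).trans hU
            push_cast at h1
            linarith
          exact (Real.rpow_le_rpow (Nat.cast_nonneg _) hW (by linarith)).trans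
            (Real.rpow_le_rpow_of_exponent_le hR1 (by linarith))
  have hS0 : ∀ a, 0 ≤ S a := fun a => sum_nonneg fun b _ => Real.rpow_nonneg (abs_nonneg _) _
  have hRT : T ≤ R ^ p * T := le_mul_of_one_le_left hT0 (Real.one_le_rpow hR1 hp0.le)
  -- collisions
  let bad : Finset (ZMod q) := ((U ×ˢ U).filter fun zw => zw.1 ≠ zw.2).biUnion
    fun zw => univ.filter fun a => (P zw.1).eval a = (P zw.2).eval a
  have hbad : (bad.card : ℝ) ≤ R ^ 2 * k := by
    have h1 : bad.card ≤ (2 * B) * (2 * B) * k := by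
      refine card_biUnion_le.trans ?_
      refine (sum_le_card_nsmul _ _ k ?_).trans ?_
      · intro zw hzw
        have hne : P zw.1 - P zw.2 ≠ 0 :=
          sub_ne_zero.2 fun h => (mem_filter.1 hzw).2 (hPinj h)
        have hsub : (univ.filter fun a => (P zw.1).eval a = (P zw.2).eval a) ⊆
            (P zw.1 - P zw.2).roots.toFinset := by
          intro a ha
          simp only [mem_filter, mem_univ, true_and] at ha
          rw [Multiset.mem_toFinset, Polynomial.mem_roots hne, Polynomial.IsRoot,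
            Polynomial.eval_sub, ha, sub_self]
        exact (card_le_card hsub).trans ((Multiset.toFinset_card_le _).trans
          ((Polynomial.card_roots' _).trans ((Polynomial.natDegree_sub_le _ _).trans
            (max_le (hdeg _) (hdeg _)))))
      · rw [smul_eq_mul]
        refine Nat.mul_le_mul_right k ((card_filter_le _ _).trans ?_)
        rw [card_product]
        exact Nat.mul_le_mul hU hU
    have h2 : (bad.card : ℝ) ≤ (((2 * B) * (2 * B) * k : ℕ) : ℝ) := by exact_mod_cast h1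
    push_cast at h2
    nlinarith [Nat.cast_nonneg (α := ℝ) k, Nat.cast_nonneg (α := ℝ) B]
  have hgood : ∀ a, a ∉ bad → S a = T := by
    intro a ha
    rw [hfib a]
    refine sum_congr rfl fun b _ => ?_
    rw [hbU]
    have hW : (U.filter (fun z => (P z).eval a = b)).card ≤ 1 := by
      refine card_le_one.2 fun z hz w hw => ?_
      by_contra hzw
      simp only [mem_filter] at hz hw
      exact ha (mem_biUnion.2 ⟨(z, w), by simp [hz.1, hw.1, hzw],
        by simp [hz.2, hw.2]⟩)
    rcases Nat.le_one_iff_eq_zero_or_eq_one.1 hW with h0 | h1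
    · rw [card_eq_zero.1 h0]; simp [Real.zero_rpow hp0.ne']
    · obtain ⟨z, hz⟩ := card_eq_one.1 h1
      rw [hz]; simp
  have hdev : |∑ a, (S a - T)| ≤ R ^ 2 * k * (R ^ p * T) := by
    refine (abs_sum_le_sum_abs _ _).trans ?_
    rw [← sum_subset (subset_univ bad) (fun a _ ha => by rw [hgood a ha]; simp)]
    refine (sum_le_card_nsmul _ _ (R ^ p * T) fun a _ => ?_).trans ?_
    · rw [abs_le]
      constructor <;> linarith [hS0 a, hSle a]
    · rw [nsmul_eq_mul]
      exact mul_le_mul_of_nonneg_right hbad (hT0.trans hRT)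
  have hqpos : (0 : ℝ) < q := by exact_mod_cast hq.pos
  have hk : R ^ 2 * k * R ^ p ≤ η * q := by
    have e2 : R ^ 2 * R ^ p = x := by
      rw [hx, Real.rpow_add (by linarith), mul_comm, Real.rpow_two]
    have e3 : η * C0 = k + 1 := by rw [hC0def]; field_simp
    have h1 : (M : ℝ) ≤ q := by exact_mod_cast hMq.le
    calc R ^ 2 * k * R ^ p = x * k := by rw [← e2]; ring
      _ ≤ η * (C0 * x) := by rw [← mul_assoc, e3]; nlinarith
      _ ≤ η * q := by nlinarith
  have hfin : (q : ℝ)⁻¹ * ∑ a, S a - T = (q : ℝ)⁻¹ * ∑ a, (S a - T) := by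
    rw [sum_sub_distrib, sum_const, card_univ, ZMod.card, nsmul_eq_mul]
    field_simp
  rw [hsum]
  show |(q : ℝ)⁻¹ * ∑ a, S a - T| ≤ η * T
  rw [hfin, abs_mul, abs_of_pos (inv_pos.2 hqpos), inv_mul_le_iff₀ hqpos]
  calc |∑ a, (S a - T)| ≤ R ^ 2 * k * (R ^ p * T) := hdev
    _ = (R ^ 2 * k * R ^ p) * T := by ring
    _ ≤ η * q * T := mul_le_mul_of_nonneg_right hk hT0
    _ = _ := by ring

/-- Vectors with small coordinatewise differences are compressed by sampling. -/
theorem exists_sample {p η : ℝ} (hp : 1 ≤ p) (hη : 0 < η) (hη1 : η ≤ 1) : ∃ C : ℝ, 0 < C ∧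
    ∀ (n : ℕ) (ι : Type) [Fintype ι] (γ : ℝ), 0 ≤ γ →
    ∀ (e : Fin n → Fin n → ℝ) (l : Fin n → ι → ℝ),
    (∀ i j, 0 ≤ e i j) → (∀ i j z, |l i z - l j z| ≤ γ * e i j) →
    ∃ d : ℕ, (d : ℝ) ≤ C * ((Fintype.card ι : ℝ) * γ ^ p + 1) * Real.log ((n : ℝ) + 2) ∧
      ∃ f : Fin n → Fin d → ℝ, ∀ i j,
      |(∑ s, |f i s - f j s| ^ p) - ∑ z, |l i z - l j z| ^ p| ≤
        η * (e i j ^ p + ∑ z, |l i z - l j z| ^ p) := by
  classical
  have hp0 : 0 < p := by linarith
  refine ⟨48 / η ^ 2 + 2, by positivity, fun n ι _ γ hγ e l he hl => ?_⟩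
  let _ : MeasurableSpace (Option ι) := ⊤
  set G := γ ^ p with hG
  have hG0 : 0 ≤ G := Real.rpow_nonneg hγ _
  set S := (Fintype.card ι : ℝ) * G + 1 with hSdef
  have hS1 : 1 ≤ S := le_add_of_nonneg_left (by positivity)
  let μ : MeasureTheory.Measure (Option ι) := MeasureTheory.Measure.count
  have hint : ∀ w : Option ι → ℝ, MeasureTheory.Integrable w μ := fun w =>
    MeasureTheory.Integrable.of_finite
  have hI : ∀ w : Option ι → ℝ, ∫ z, w z ∂μ = w none + ∑ z, w (some z) := by
    intro w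
    rw [MeasureTheory.integral_fintype (hint w), Fintype.sum_option]
    simp [μ, MeasureTheory.Measure.real]
  let h : Option ι → ℝ := fun z => z.elim 1 (fun _ => G)
  have hIh : ∫ z, h z ∂μ = S := by rw [hI]; simp [h, hSdef]; ring
  let dl : Fin n × Fin n → ι → ℝ := fun a z => |l a.1 z - l a.2 z| ^ p
  let E : Fin n × Fin n → ℝ := fun a => e a.1 a.2 ^ p
  let s : Fin n × Fin n → ℝ := fun a => ∑ z, dl a z
  let u : Option (Fin n × Fin n) → Option ι → ℝ := fun a z => match a, z with
    | none, none => 1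
    | none, some _ => 0
    | some a, none => 1 - s a / (E a + s a)
    | some a, some z => dl a z / (E a + s a)
  have hdl0 : ∀ a z, 0 ≤ dl a z := fun a z => Real.rpow_nonneg (abs_nonneg _) _
  have hE0 : ∀ a, 0 ≤ E a := fun a => Real.rpow_nonneg (he _ _) _
  have hs0 : ∀ a, 0 ≤ s a := fun a => sum_nonneg fun z _ => hdl0 a z
  have hdlG : ∀ a z, dl a z ≤ G * E a := fun a z => by
    simp only [dl, E, hG, ← Real.mul_rpow hγ (he _ _)]
    exact Real.rpow_le_rpow (abs_nonneg _) (hl _ _ z) hp0.le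
  have hu1 : ∀ a, ∫ z, u a z ∂μ = 1 := by
    rintro (_ | a)
    · rw [hI]; simp [u]
    · rw [hI]; simp only [u, ← Finset.sum_div]; simp [s]
  have hdom : ∀ z, True → ∀ a, 0 ≤ u a z ∧ u a z ≤ h z := by
    intro z _ a
    rcases a with _ | a <;> rcases z with _ | z
    · simp [u, h]
    · simp [u, h, hG0]
    · have h1 : s a / (E a + s a) ≤ 1 := div_le_one_of_le₀ (by linarith [hE0 a])
        (by linarith [hE0 a, hs0 a])
      have h2 : 0 ≤ s a / (E a + s a) := div_nonneg (hs0 a) (by linarith [hE0 a, hs0 a])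
      simp only [u, h, Option.elim]
      constructor <;> linarith
    · refine ⟨div_nonneg (hdl0 a z) (by linarith [hE0 a, hs0 a]), ?_⟩
      simp only [u, h, Option.elim]
      exact div_le_of_le_mul₀ (by linarith [hE0 a, hs0 a]) hG0
        ((hdlG a z).trans (mul_le_mul_of_nonneg_left (by linarith [hs0 a]) hG0))
  set N := ⌈4 * S * Real.log (2 * ((Fintype.card (Option (Fin n × Fin n)) : ℝ) + 1)) /
    (η / 2) ^ 2⌉₊ with hN
  have hSpos : 0 < S := by linarith
  have hlogpos : 0 < Real.log (2 * ((Fintype.card (Option (Fin n × Fin n)) : ℝ) + 1)) :=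
    Real.log_pos (by have := Nat.cast_nonneg (α := ℝ) (Fintype.card (Option (Fin n × Fin n)))
                     linarith)
  have hNpos : (0 : ℝ) < N := by
    rw [hN, Nat.cast_pos, Nat.ceil_pos]
    positivity
  obtain ⟨z, hz, hzz⟩ := Vale.Agent.P249.exists_samples (μ := μ) h (hint h)
    (fun z => by rcases z with _ | z <;> simp [h, hG0]) (by rw [hIh]; exact hSpos)
    (fun _ => True) (Filter.Eventually.of_forall fun _ => trivial) u (fun a => hint _) hu1 hdom
    (η := η / 2) (by positivity) (by linarith) N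
    (by rw [hIh, ← div_le_iff₀ (by positivity)]; exact Nat.le_ceil _)
  refine ⟨N, ?_, fun i t => (z t).elim 0 (fun y => (S / (N * G)) ^ p⁻¹ * l i y), fun i j => ?_⟩
  · set L := Real.log ((n : ℝ) + 2) with hL
    have hlog : Real.log (2 * ((Fintype.card (Option (Fin n × Fin n)) : ℝ) + 1)) ≤ 3 * L := by
      rw [hL, ← Real.log_rpow (by positivity), show ((3 : ℝ)) = ((3 : ℕ) : ℝ) by norm_num,
        Real.rpow_natCast]
      refine Real.log_le_log (by positivity) ?_
      simp only [Fintype.card_option, Fintype.card_prod, Fintype.card_fin]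
      push_cast
      nlinarith [Nat.cast_nonneg (α := ℝ) n, sq_nonneg (n : ℝ),
        mul_nonneg (Nat.cast_nonneg (α := ℝ) n) (sq_nonneg (n : ℝ))]
    have hL2 : (1 : ℝ) / 2 ≤ L := by
      have h1 : Real.log 2 ≤ L := Real.log_le_log (by norm_num)
        (by linarith [Nat.cast_nonneg (α := ℝ) n])
      have := Real.log_two_gt_d9
      linarith
    have hceil : (N : ℝ) < 4 * S * Real.log (2 * ((Fintype.card (Option (Fin n × Fin n)) : ℝ)
        + 1)) / (η / 2) ^ 2 + 1 := Nat.ceil_lt_add_one (by positivity)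
    calc (N : ℝ) ≤ 4 * S * (3 * L) / (η / 2) ^ 2 + 2 * (S * L) := by
          refine hceil.le.trans (add_le_add ?_ (by nlinarith))
          gcongr
      _ = _ := by ring
  have hnone := hzz none
  have hsome := hzz (some (i, j))
  rw [hIh] at hnone hsome
  set Q := (N : ℝ) / S with hQ
  have hQ0 : 0 < Q := div_pos hNpos hSpos
  set D := E (i, j) + s (i, j) with hD
  set A := ∑ t, (z t).elim (0 : ℝ) (fun y => dl (i, j) y / G) with hA
  set cn := ∑ t, u none (z t) / h (z t) with hcn
  set su := ∑ t, u (some (i, j)) (z t) / h (z t) with hsu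
  have hid : A + E (i, j) * cn = D * su := by
    rw [hA, hcn, hsu, mul_sum, mul_sum, ← sum_add_distrib]
    refine sum_congr rfl fun t _ => ?_
    rcases eq_or_ne D 0 with hD0 | hD0
    · have hEz : E (i, j) = 0 := by
        linarith [hE0 (i, j), hs0 (i, j)]
      have hdz : ∀ y, dl (i, j) y = 0 := fun y =>
        le_antisymm ((hdlG (i, j) y).trans (by rw [hEz, mul_zero])) (hdl0 _ y)
      rw [hD0, hEz]
      rcases z t with _ | y <;> simp [hdz]
    · rcases z t with _ | y
      · simp only [u, h, Option.elim, ← hD]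
        field_simp
        rw [hD]; ring
      · simp only [u, h, Option.elim, ← hD]
        field_simp
        ring
  have hval : ∑ t, |(z t).elim 0 (fun y => (S / (N * G)) ^ p⁻¹ * l i y) -
      (z t).elim 0 (fun y => (S / (N * G)) ^ p⁻¹ * l j y)| ^ p = A / Q := by
    rw [hA, sum_div]
    refine sum_congr rfl fun t _ => ?_
    rcases z t with _ | y
    · simp [Real.zero_rpow hp0.ne']
    · simp only [Option.elim, dl, hQ]
      rw [rpow_inv_mul_abs_sub hp0 (show 0 ≤ S / (N * G) by positivity)]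
      simp only [div_eq_mul_inv, mul_inv, inv_inv]
      ring
  rw [hval]
  show |A / Q - s (i, j)| ≤ η * (E (i, j) + s (i, j))
  have h1 := abs_le.1 hnone
  have h2 := abs_le.1 hsome
  have hD0 : 0 ≤ D := by linarith [hE0 (i, j), hs0 (i, j)]
  have e1 : A - Q * s (i, j) = D * (su - Q) - E (i, j) * (cn - Q) := by
    rw [hD] at hid ⊢; linarith [hid]
  have e2 : |A - Q * s (i, j)| ≤ η * D * Q := by
    rw [e1, abs_le]
    have hEe := hE0 (i, j)
    have hEd : E (i, j) ≤ D := by linarith [hs0 (i, j)]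
    constructor <;> nlinarith [mul_le_mul_of_nonneg_left h1.1 hEe,
      mul_le_mul_of_nonneg_left h1.2 hEe, mul_le_mul_of_nonneg_left h2.1 hD0,
      mul_le_mul_of_nonneg_left h2.2 hD0, mul_nonneg (mul_nonneg hη.le hQ0.le)
      (sub_nonneg.2 hEd)]
  rw [← hD, show A / Q - s (i, j) = (A - Q * s (i, j)) / Q by field_simp, abs_div,
    abs_of_pos hQ0, div_le_iff₀ hQ0]
  exact e2

end Vale.Agent.P249.Every
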