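import Mathlib

/-!
Definitions for dimension reduction in `ℓ_p` at every distortion greater than one.
-/

namespace Vale.Agent.P249.Every

open Finset

/-- The `ℓ_p` distance of two vectors. -/
noncomputable def pdist {ι : Type*} [Fintype ι] (p : ℝ) (u v : ι → ℝ) : ℝ :=
  (∑ z, |u z - v z| ^ p) ^ p⁻¹

/-- Centre kernels with scales: any pair is covered at a scale comparable to its distance by an
active kernel with overlap at least `3/4`, and the scaled `p`-th moments of the kernels active at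
a point have total at most `Φ`. -/
def HasScheme {n : ℕ} (p : ℝ) (d : Fin n → Fin n → ℝ) (Φ : ℝ) : Prop :=
  ∃ (T : Type) (_ : Fintype T) (t : T → ℝ) (ν : T → Fin n → Fin n → ℝ) (act : T → Fin n → Prop),
    (∀ T₀, 0 < t T₀) ∧ (∀ T₀ i c, 0 ≤ ν T₀ i c) ∧ (∀ T₀ i, ∑ c, ν T₀ i c ≤ 1) ∧
    (∀ i j, 0 < d i j → ∃ T₀, act T₀ i ∧ act T₀ j ∧ t T₀ ≤ 2 * d i j ∧
      3 / 4 ≤ ∑ c, min (ν T₀ i c) (ν T₀ j c)) ∧
    (∀ i, ∀ A : Finset T, (∀ T₀ ∈ A, act T₀ i) →
      ∑ T₀ ∈ A, ∑ c, ν T₀ i c * (d i c / t T₀) ^ p ≤ Φ)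

variable {ι : Type*} [Fintype ι] {p : ℝ}

theorem pdist_nonneg (u v : ι → ℝ) : 0 ≤ pdist p u v :=
  Real.rpow_nonneg (Finset.sum_nonneg fun _ _ => Real.rpow_nonneg (abs_nonneg _) _) _

theorem pdist_comm (u v : ι → ℝ) : pdist p u v = pdist p v u := by
  simp only [pdist, abs_sub_comm]

theorem pdist_self (hp : 0 < p) (u : ι → ℝ) : pdist p u u = 0 := by
  simp [pdist, Real.zero_rpow hp.ne', hp.ne']

theorem pdist_rpow (hp : 0 < p) (u v : ι → ℝ) : pdist p u v ^ p = ∑ z, |u z - v z| ^ p :=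
  Real.rpow_inv_rpow (Finset.sum_nonneg fun _ _ => Real.rpow_nonneg (abs_nonneg _) _) hp.ne'

theorem pdist_triangle (hp : 1 ≤ p) (u v w : ι → ℝ) :
    pdist p u w ≤ pdist p u v + pdist p v w := by
  have h := Real.Lp_add_le Finset.univ (fun z => u z - v z) (fun z => v z - w z) hp
  simpa [pdist, one_div] using h

theorem abs_le_pdist (hp : 0 < p) (u v : ι → ℝ) (z : ι) : |u z - v z| ≤ pdist p u v := by
  rw [pdist, Real.le_rpow_inv_iff_of_pos (abs_nonneg _)
    (Finset.sum_nonneg fun _ _ => Real.rpow_nonneg (abs_nonneg _) _) hp]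
  exact Finset.single_le_sum (fun z _ => Real.rpow_nonneg (abs_nonneg (u z - v z)) p)
    (Finset.mem_univ z)

end Vale.Agent.P249.Every
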