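import Vale.Agent.P249.Main
import Vale.Agent.P249.Every.Defs

/-!
Iterating the dimension reduction step, and the front end from `L_p` to a finite dimensional
`ℓ_p`, giving dimension `O(n ^ δ)` at every distortion greater than one.
-/

namespace Vale.Agent.P249.Every

open MeasureTheory Real

universe u

theorem pdist_smul {ι : Type*} [Fintype ι] {p : ℝ} (hp : 0 < p) {c : ℝ} (hc : 0 ≤ c)
    (u v : ι → ℝ) : pdist p (fun z => c * u z) (fun z => c * v z) = c * pdist p u v := by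
  have h : ∀ z, |c * u z - c * v z| ^ p = c ^ p * |u z - v z| ^ p := fun z => by
    rw [← mul_sub, abs_mul, abs_of_nonneg hc, Real.mul_rpow hc (abs_nonneg _)]
  unfold pdist
  rw [Finset.sum_congr rfl fun z _ => h z, ← Finset.mul_sum,
    Real.mul_rpow (Real.rpow_nonneg hc _) (Finset.sum_nonneg fun z _ => Real.rpow_nonneg (abs_nonneg _) _),
    Real.rpow_rpow_inv hc hp.ne']

/-- Repeating a step which lowers the exponent of the dimension by the factor `1 - s`. -/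
theorem exists_iterate {p δ s : ℝ} (hs0 : 0 ≤ s) (hs1 : s ≤ 1) (hδ : 0 < δ)
    (hstep : ∀ ε e B : ℝ, 0 < ε → ε ≤ 1 → 0 < B →
      ∃ C : ℝ, 0 < C ∧ ∀ n K : ℕ, 2 ≤ n → (K : ℝ) ≤ B * (n : ℝ) ^ e → ∀ x : Fin n → Fin K → ℝ,
        ∃ d : ℕ, (d : ℝ) ≤ C * (n : ℝ) ^ max δ (e * (1 - s)) ∧
          ∃ f : Fin n → Fin d → ℝ, ∀ i j,
            |pdist p (f i) (f j) - pdist p (x i) (x j)| ≤ ε * pdist p (x i) (x j))
    (r : ℕ) : ∀ ε e B : ℝ, 0 < ε → ε ≤ 1 → 0 < B →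
      ∃ C : ℝ, 0 < C ∧ ∀ n K : ℕ, 2 ≤ n → (K : ℝ) ≤ B * (n : ℝ) ^ e → ∀ x : Fin n → Fin K → ℝ,
        ∃ d : ℕ, (d : ℝ) ≤ C * (n : ℝ) ^ max δ (e * (1 - s) ^ r) ∧
          ∃ f : Fin n → Fin d → ℝ, ∀ i j,
            |pdist p (f i) (f j) - pdist p (x i) (x j)| ≤ ε * pdist p (x i) (x j) := by
  induction r with
  | zero =>
    intro ε e B hε _ hB
    refine ⟨B, hB, fun n K hn hK x => ⟨K, hK.trans ?_, x, fun i j => ?_⟩⟩
    · refine mul_le_mul_of_nonneg_left (Real.rpow_le_rpow_of_exponent_le ?_ ?_) hB.le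
      · exact_mod_cast (by omega : 1 ≤ n)
      · simp
    · rw [sub_self, abs_zero]
      exact mul_nonneg hε.le (pdist_nonneg _ _)
  | succ r ih =>
    intro ε e B hε hε1 hB
    obtain ⟨C₁, hC₁, h₁⟩ := hstep (ε / 3) e B (by linarith) (by linarith) hB
    obtain ⟨C₂, hC₂, h₂⟩ := ih (ε / 3) (max δ (e * (1 - s))) C₁ (by linarith) (by linarith) hC₁
    refine ⟨C₂, hC₂, fun n K hn hK x => ?_⟩
    obtain ⟨d₁, hd₁, f₁, hf₁⟩ := h₁ n K hn hK x
    obtain ⟨d₂, hd₂, f₂, hf₂⟩ := h₂ n d₁ hn hd₁ f₁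
    refine ⟨d₂, hd₂.trans ?_, f₂, fun i j => ?_⟩
    · have hq : 0 ≤ (1 - s) ^ r := pow_nonneg (by linarith) r
      have hq1 : (1 - s) ^ r ≤ 1 := pow_le_one₀ (by linarith) (by linarith)
      refine mul_le_mul_of_nonneg_left (Real.rpow_le_rpow_of_exponent_le ?_ ?_) hC₂.le
      · exact_mod_cast (by omega : 1 ≤ n)
      · refine max_le (le_max_left _ _) ?_
        rw [max_mul_of_nonneg _ _ hq]
        refine max_le (le_trans ?_ (le_max_left _ _)) (le_trans ?_ (le_max_right _ _))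
        · exact mul_le_of_le_one_right hδ.le hq1
        · rw [pow_succ']; exact le_of_eq (by ring)
    · have a := hf₁ i j
      have b := hf₂ i j
      have h0 := pdist_nonneg (p := p) (x i) (x j)
      rw [abs_le] at a b ⊢
      have : ε / 3 * pdist p (f₁ i) (f₁ j) ≤ 2 * (ε / 3) * pdist p (x i) (x j) := by
        have h1 : pdist p (f₁ i) (f₁ j) ≤ 2 * pdist p (x i) (x j) := by nlinarith
        nlinarith
      constructor <;> nlinarith

/-- The front end: a finite subset of `L_p` maps to `ℓ_p ^ d` with polynomial `d`. -/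
theorem exists_front {p D : ℝ} (hp : 1 ≤ p) (hD : 1 < D) :
    ∃ B : ℝ, 0 < B ∧ ∀ n : ℕ, 2 ≤ n → ∀ (α : Type u) [MeasurableSpace α] (μ : Measure α)
      (x : Fin n → Lp ℝ (ENNReal.ofReal p) μ),
      ∃ d : ℕ, (d : ℝ) ≤ B * (n : ℝ) ^ (p + 3) ∧ ∃ f : Fin n → Fin d → ℝ, ∀ i j,
        ‖x i - x j‖ ≤ pdist p (f i) (f j) ∧ pdist p (f i) (f j) ≤ D * ‖x i - x j‖ := by
  have hp0 : 0 < p := by linarith
  set η := (D - 1) / (D + 1) with hη
  have hη0 : 0 < η := div_pos (by linarith) (by linarith)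
  have hη1 : η < 1 := by rw [hη, div_lt_one (by linarith)]; linarith
  have hηD : (1 + η) / (1 - η) = D := by rw [hη]; field_simp; ring
  refine ⟨4 * ((2 : ℝ) ^ p * 3) * 4 / η ^ 2 + 1, by positivity, fun n hn α _ μ x => ?_⟩
  have hn1 : (1 : ℝ) ≤ n := by exact_mod_cast (by omega : 1 ≤ n)
  set k := Nat.log 3 n + 1 with hk
  have hkn : n < 3 ^ k := Nat.lt_pow_succ_log_self (by norm_num) n
  have hkle : k ≤ n := Nat.succ_le_of_lt (Nat.log_lt_self 3 (by omega))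
  obtain ⟨h, hhi, hh0, hS, hdom⟩ := exists_density hp hkn (by omega) x
  set V := 4 * ((2 : ℝ) ^ p * 3) * 4 / η ^ 2 * (n : ℝ) ^ (p + 3) with hV
  have hV0 : 0 ≤ V := by positivity
  have hpow : (1 : ℝ) ≤ (n : ℝ) ^ (p + 3) := Real.one_le_rpow hn1 (by linarith)
  have hd : 4 * (∫ z, h z ∂μ) * Real.log (2 * ((n : ℝ) * n + 1)) ≤ ⌈V⌉₊ * η ^ 2 := by
    have h1 : ((2 * k : ℕ) : ℝ) ^ p * (3 * n) ≤ (2 : ℝ) ^ p * (n : ℝ) ^ p * (3 * n) := by
      rw [← Real.mul_rpow (by norm_num) (by linarith)]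
      refine mul_le_mul_of_nonneg_right (Real.rpow_le_rpow (Nat.cast_nonneg _) ?_ hp0.le) (by positivity)
      exact_mod_cast (by omega : 2 * k ≤ 2 * n)
    have h2 : Real.log (2 * ((n : ℝ) * n + 1)) ≤ 4 * (n * n) :=
      (Real.log_le_self (by positivity)).trans (by nlinarith)
    calc 4 * (∫ z, h z ∂μ) * Real.log (2 * ((n : ℝ) * n + 1))
        ≤ 4 * ((2 : ℝ) ^ p * (n : ℝ) ^ p * (3 * n)) * (4 * (n * n)) :=
          mul_le_mul (mul_le_mul_of_nonneg_left (hS.trans h1) (by norm_num)) h2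
            (Real.log_nonneg (by nlinarith)) (by positivity)
      _ = V * η ^ 2 := by
          rw [hV, Real.rpow_add (by linarith : (0 : ℝ) < n),
            show ((3 : ℝ)) = ((3 : ℕ) : ℝ) by norm_num, Real.rpow_natCast]
          field_simp
      _ ≤ _ := by gcongr; exact Nat.le_ceil V
  obtain ⟨f, hf⟩ := exists_map_of_density hp x h hhi hh0 hdom hη0 hη1 ⌈V⌉₊ hd
  refine ⟨⌈V⌉₊, (Nat.ceil_lt_add_one hV0).le.trans (by rw [hV, add_mul]; linarith), f,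
    fun i j => ?_⟩
  obtain ⟨hlo, hup⟩ := hf i j
  have hN : 0 ≤ ‖x i - x j‖ := Lp_norm_nonneg' (x i - x j)
  have hs : 0 ≤ ∑ s, |f i s - f j s| ^ p := Finset.sum_nonneg (fun s _ => by positivity)
  unfold pdist
  constructor
  · exact (Real.le_rpow_inv_iff_of_pos hN hs hp0).2 hlo
  · rw [Real.rpow_inv_le_iff_of_pos hs (mul_nonneg (by linarith) hN) hp0,
      Real.mul_rpow (by linarith) hN]
    refine hup.trans ?_
    rw [hηD]
    exact mul_le_mul_of_nonneg_right (Real.self_le_rpow_of_one_le hD.le hp)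
      (Real.rpow_nonneg hN _)

/-- Dimension `O(n ^ δ)` at every distortion, from any step lowering the exponent. -/
theorem exists_every_of_step (p : ℝ) (hp : 1 < p) (D : ℝ) (hD : 1 < D) (δ : ℝ) (hδ : 0 < δ)
    {s : ℝ} (hs0 : 0 < s) (hs1 : s ≤ 1)
    (hstep : ∀ ε e B : ℝ, 0 < ε → ε ≤ 1 → 0 < B →
      ∃ C : ℝ, 0 < C ∧ ∀ n K : ℕ, 2 ≤ n → (K : ℝ) ≤ B * (n : ℝ) ^ e → ∀ x : Fin n → Fin K → ℝ,
        ∃ d : ℕ, (d : ℝ) ≤ C * (n : ℝ) ^ max δ (e * (1 - s)) ∧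
          ∃ f : Fin n → Fin d → ℝ, ∀ i j,
            |pdist p (f i) (f j) - pdist p (x i) (x j)| ≤ ε * pdist p (x i) (x j)) :
    ∃ C : ℝ, 0 < C ∧ ∀ n : ℕ, 2 ≤ n → ∀ (α : Type u) [MeasurableSpace α] (μ : Measure α)
      (x : Fin n → Lp ℝ (ENNReal.ofReal p) μ),
      ∃ d : ℕ, (d : ℝ) ≤ C * (n : ℝ) ^ δ ∧ ∃ f : Fin n → Fin d → ℝ, ∀ i j,
        ‖x i - x j‖ ≤ (∑ s, |f i s - f j s| ^ p) ^ p⁻¹ ∧
        (∑ s, |f i s - f j s| ^ p) ^ p⁻¹ ≤ D * ‖x i - x j‖ := by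
  have hp0 : 0 < p := by linarith
  set D₁ := √D with hD₁
  have hD₁1 : 1 < D₁ := by rw [hD₁, Real.lt_sqrt zero_le_one]; linarith
  have hD₁2 : D₁ * D₁ = D := Real.mul_self_sqrt (by linarith)
  set ε := (D₁ - 1) / (D₁ + 1) with hε
  have hε0 : 0 < ε := div_pos (by linarith) (by linarith)
  have hε1 : ε < 1 := by rw [hε, div_lt_one (by linarith)]; linarith
  obtain ⟨B, hB, hfront⟩ := exists_front.{u} hp.le hD₁1
  obtain ⟨r, hr⟩ := exists_pow_lt_of_lt_one (div_pos hδ (by linarith : 0 < p + 3))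
    (by linarith : 1 - s < 1)
  obtain ⟨C, hC, hit⟩ := exists_iterate hs0.le hs1 hδ hstep r ε (p + 3) B hε0 hε1.le hB
  refine ⟨C, hC, fun n hn α _ μ x => ?_⟩
  obtain ⟨d₀, hd₀, f₀, hf₀⟩ := hfront n hn α μ x
  obtain ⟨d, hd, f, hf⟩ := hit n d₀ hn hd₀ f₀
  have hexp : max δ ((p + 3) * (1 - s) ^ r) = δ := by
    refine max_eq_left ?_
    have := (lt_div_iff₀ (by linarith : 0 < p + 3)).1 hr
    linarith
  rw [hexp] at hd
  refine ⟨d, hd, fun i z => (1 - ε)⁻¹ * f i z, fun i j => ?_⟩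
  change ‖x i - x j‖ ≤ pdist p (fun z => (1 - ε)⁻¹ * f i z) (fun z => (1 - ε)⁻¹ * f j z) ∧
    pdist p (fun z => (1 - ε)⁻¹ * f i z) (fun z => (1 - ε)⁻¹ * f j z) ≤ D * ‖x i - x j‖
  have h1e : 0 < 1 - ε := by linarith
  rw [pdist_smul hp0 (inv_nonneg.2 h1e.le)]
  obtain ⟨ha, hb⟩ := hf₀ i j
  have hc := abs_le.1 (hf i j)
  rw [inv_mul_eq_div, le_div_iff₀ h1e, div_le_iff₀ h1e]
  have hkey : (1 + ε) * D₁ = D * (1 - ε) := by
    rw [← hD₁2, hε]; field_simp; ring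
  constructor
  · calc ‖x i - x j‖ * (1 - ε) ≤ pdist p (f₀ i) (f₀ j) * (1 - ε) :=
          mul_le_mul_of_nonneg_right ha h1e.le
      _ ≤ pdist p (f i) (f j) := by linarith [hc.1]
  · calc pdist p (f i) (f j) ≤ (1 + ε) * pdist p (f₀ i) (f₀ j) := by linarith [hc.2]
      _ ≤ (1 + ε) * (D₁ * ‖x i - x j‖) := mul_le_mul_of_nonneg_left hb (by linarith)
      _ = D * ‖x i - x j‖ * (1 - ε) := by rw [← mul_assoc, hkey]; ring

end Vale.Agent.P249.Every
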