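import Vale.Agent.P249.Every.Step
import Vale.Agent.P249.Every.Iterate

/-!
Dimension reduction below every power of `n` at every distortion.
-/

namespace Vale.Agent.P249.Every

open MeasureTheory

universe u

theorem saving_pos {p : ℝ} (hp : 1 < p) : 0 < saving p := by
  unfold saving; positivity

theorem saving_le_one {p : ℝ} (hp : 1 < p) : saving p ≤ 1 := by
  rw [saving, div_le_one (by positivity)]; linarith

theorem exists_every (p : ℝ) (hp : 1 < p) (D : ℝ) (hD : 1 < D) (δ : ℝ) (hδ : 0 < δ) :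
    ∃ C : ℝ, 0 < C ∧ ∀ n : ℕ, 2 ≤ n → ∀ (α : Type u) [MeasurableSpace α] (μ : Measure α)
      (x : Fin n → Lp ℝ (ENNReal.ofReal p) μ),
      ∃ d : ℕ, (d : ℝ) ≤ C * (n : ℝ) ^ δ ∧ ∃ f : Fin n → Fin d → ℝ, ∀ i j,
        ‖x i - x j‖ ≤ (∑ s, |f i s - f j s| ^ p) ^ p⁻¹ ∧
        (∑ s, |f i s - f j s| ^ p) ^ p⁻¹ ≤ D * ‖x i - x j‖ :=
  exists_every_of_step p hp D hD δ hδ (saving_pos hp) (saving_le_one hp)
    (fun _ _ _ h1 h2 h3 => exists_step hp h1 h2 hδ h3)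

end Vale.Agent.P249.Every
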