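import Vale.Agent.P249.Every.Defs

/-!
Centre kernels for a single scale: a random radius around the point, followed by a Gaussian
perturbation of the Mazur image and a nearest-point rule.
-/

namespace Vale.Agent.P249.Every

open MeasureTheory ProbabilityTheory Finset Real

/-- Standard Gaussian measure on `Fin K → ℝ`. -/
noncomputable def gpi (K : ℕ) : Measure (Fin K → ℝ) := Measure.pi fun _ => gaussianReal 0 1

instance (K : ℕ) : IsProbabilityMeasure (gpi K) := by unfold gpi; infer_instance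

theorem gpi_exp {K : ℕ} (u : Fin K → ℝ) :
    Integrable (fun g => exp (∑ z, u z * g z)) (gpi K) ∧
      ∫ g, exp (∑ z, u z * g z) ∂(gpi K) = exp ((∑ z, u z ^ 2) / 2) := by
  simp only [exp_sum, Finset.sum_div]
  refine ⟨Integrable.fintype_prod fun z => integrable_exp_mul_gaussianReal (u z), ?_⟩
  rw [gpi, integral_fintype_prod_eq_prod (fun z y => exp (u z * y))]
  refine Finset.prod_congr rfl fun z _ => ?_
  have := congrFun (mgf_id_gaussianReal (μ := 0) (v := 1)) (u z)
  simpa [mgf] using this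

/-- Translation density. -/
noncomputable def rho {K : ℕ} (v g : Fin K → ℝ) : ℝ := ∏ z, exp (v z * g z - v z ^ 2 / 2)

theorem rho_eq {K : ℕ} (v g : Fin K → ℝ) :
    rho v g = exp (-((∑ z, v z ^ 2) / 2)) * exp (∑ z, v z * g z) := by
  rw [rho, ← exp_sum, ← exp_add, Finset.sum_sub_distrib, Finset.sum_div]
  ring_nf

theorem rho_moments {K : ℕ} (v : Fin K → ℝ) :
    Integrable (rho v) (gpi K) ∧ ∫ g, rho v g ∂(gpi K) = 1 ∧
      Integrable (fun g => rho v g ^ 2) (gpi K) ∧
      ∫ g, rho v g ^ 2 ∂(gpi K) = exp (∑ z, v z ^ 2) := by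
  have e1 : rho v = fun g => exp (-((∑ z, v z ^ 2) / 2)) * exp (∑ z, v z * g z) :=
    funext (rho_eq v)
  have e2 : (fun g => rho v g ^ 2) =
      fun g => exp (-(∑ z, v z ^ 2)) * exp (∑ z, (2 * v z) * g z) := by
    funext g
    rw [rho_eq, ← exp_add, ← exp_add, ← exp_nat_mul, mul_add, Finset.mul_sum]
    push_cast
    congr 1
    simp only [mul_assoc, ← Finset.mul_sum]
    ring
  obtain ⟨i1, h1⟩ := gpi_exp v
  obtain ⟨i2, h2⟩ := gpi_exp fun z => 2 * v z
  refine ⟨e1 ▸ i1.const_mul _, ?_, e2 ▸ i2.const_mul _, ?_⟩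
  · rw [e1, integral_const_mul, h1, ← exp_add, neg_add_cancel, exp_zero]
  · rw [e2, integral_const_mul, h2, ← exp_add]
    congr 1
    simp only [mul_pow, ← Finset.mul_sum]
    ring

theorem gauss_shift_one (v : ℝ) (s : Set ℝ) (hs : MeasurableSet s) :
    gaussianReal v 1 s =
      ENNReal.ofReal (∫ y in s, exp (v * y - v ^ 2 / 2) ∂(gaussianReal 0 1)) := by
  rw [gaussianReal_apply_eq_integral v one_ne_zero s, ← integral_indicator hs,
    ← integral_indicator hs, integral_gaussianReal_eq_integral_smul one_ne_zero]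
  congr 1
  refine integral_congr_ae (Filter.Eventually.of_forall fun y => ?_)
  by_cases hy : y ∈ s
  · simp only [Set.indicator_of_mem hy, smul_eq_mul, gaussianPDFReal_def, NNReal.coe_one, mul_one,
      sub_zero, mul_assoc]
    rw [← exp_add]
    ring_nf
  · simp [Set.indicator_of_notMem hy]

theorem gpi_shift {K : ℕ} (v : Fin K → ℝ) (A : Set (Fin K → ℝ)) (hA : MeasurableSet A) :
    (gpi K).real ((fun g => g + v) ⁻¹' A) = ∫ g in A, rho v g ∂(gpi K) := by
  have hmap : (gpi K).map (fun g => g + v) = Measure.pi fun z => gaussianReal (v z) 1 := by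
    have h := Measure.pi_map_pi (μ := fun _ : Fin K => gaussianReal 0 1)
      (f := fun z y => y + v z) (fun z => (measurable_id.add_const _).aemeasurable)
    simp only [gaussianReal_map_add_const, zero_add] at h
    exact h
  have hint := (rho_moments v).1
  have hnn : ∀ g, 0 ≤ rho v g := fun g => Finset.prod_nonneg fun z _ => (exp_pos _).le
  have hden : Measure.pi (fun z => gaussianReal (v z) 1) =
      (gpi K).withDensity fun g => ENNReal.ofReal (rho v g) := by
    refine Measure.pi_eq (μ := fun z => gaussianReal (v z) 1) fun s hs => ?_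
    rw [withDensity_apply _ (MeasurableSet.univ_pi hs),
      ← ofReal_integral_eq_lintegral_ofReal hint.restrict (Filter.Eventually.of_forall hnn),
      gpi, Measure.restrict_pi_pi]
    simp only [rho]
    rw [integral_fintype_prod_eq_prod (fun z y => exp (v z * y - v z ^ 2 / 2)),
      ENNReal.ofReal_prod_of_nonneg fun z _ => integral_nonneg fun y => (exp_pos _).le]
    exact Finset.prod_congr rfl fun z _ => (gauss_shift_one (v z) (s z) (hs z)).symm
  rw [← map_measureReal_apply (by fun_prop) hA, hmap, hden, measureReal_def,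
    withDensity_apply _ hA,
    ← ofReal_integral_eq_lintegral_ofReal hint.restrict (Filter.Eventually.of_forall hnn),
    ENNReal.toReal_ofReal (integral_nonneg hnn)]

/-- Gaussian perturbation makes any finite-valued rule stable under small shifts. -/
theorem gauss_stable {K n : ℕ} (m : (Fin K → ℝ) → Fin n) (hm : Measurable m) (v : Fin K → ℝ)
    (hv : ∑ z, v z ^ 2 ≤ 1 / 400) :
    9 / 10 ≤ ∑ c, min ((gpi K).real (m ⁻¹' {c}))
      ((gpi K).real ((fun g => m (g + v)) ⁻¹' {c})) := by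
  obtain ⟨i1, h1, i2, h2⟩ := rho_moments v
  set μ := gpi K
  have hA : ∀ c, MeasurableSet (m ⁻¹' {c}) := fun c => hm (measurableSet_singleton c)
  have hP : ∀ c, μ.real (m ⁻¹' {c}) = ∫ g in m ⁻¹' {c}, (1:ℝ) ∂μ := fun c => by
    simp
  have hQ : ∀ c, μ.real ((fun g => m (g + v)) ⁻¹' {c}) = ∫ g in m ⁻¹' {c}, rho v g ∂μ :=
    fun c => gpi_shift v _ (hA c)
  have hpt : ∀ g, |rho v g - 1| ≤ 5 * (rho v g - 1) ^ 2 + 1 / 20 := by
    intro g
    nlinarith [sq_nonneg (|rho v g - 1| * 10 - 1), sq_abs (rho v g - 1)]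
  have isq : Integrable (fun g => (rho v g - 1) ^ 2) μ := by
    have h : (fun g => (rho v g - 1) ^ 2) = fun g => rho v g ^ 2 - 2 * rho v g + 1 := by
      funext g; ring
    rw [h]
    exact (i2.sub (i1.const_mul 2)).add (integrable_const _)
  have iabs : Integrable (fun g => |rho v g - 1|) μ := (i1.sub (integrable_const 1)).abs
  have hL1 : ∫ g, |rho v g - 1| ∂μ ≤ 1 / 10 := by
    refine (integral_mono iabs ((isq.const_mul 5).add (integrable_const _)) hpt).trans ?_
    simp only [Pi.add_apply]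
    rw [integral_add (isq.const_mul 5) (integrable_const _), integral_const_mul]
    have h : ∫ g, (rho v g - 1) ^ 2 ∂μ = exp (∑ z, v z ^ 2) - 1 := by
      have h : (fun g => (rho v g - 1) ^ 2) = fun g => rho v g ^ 2 - 2 * rho v g + 1 := by
        funext g; ring
      rw [h, integral_add (f := fun g => rho v g ^ 2 - 2 * rho v g) (g := fun _ => (1:ℝ))
          (i2.sub (i1.const_mul 2)) (integrable_const _),
        integral_sub i2 (i1.const_mul 2), integral_const_mul, h1, h2]
      simp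
      ring
    rw [h]
    simp only [integral_const, probReal_univ, one_smul]
    have := exp_bound_div_one_sub_of_interval (x := ∑ z, v z ^ 2)
      (Finset.sum_nonneg fun z _ => sq_nonneg _) (by linarith)
    have h2' : 1 / (1 - ∑ z, v z ^ 2) ≤ 1 / (1 - 1 / 400) :=
      one_div_le_one_div_of_le (by norm_num) (by linarith)
    norm_num at h2' this ⊢
    linarith
  have hfib : ∀ f : (Fin K → ℝ) → ℝ, Integrable f μ →
      ∑ c, ∫ g in m ⁻¹' {c}, f g ∂μ = ∫ g, f g ∂μ := by
    intro f hf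
    rw [← integral_iUnion_fintype hA ?_ fun c => hf.integrableOn]
    · rw [show (⋃ c, m ⁻¹' {c}) = Set.univ by ext g; simp, setIntegral_univ]
    · intro c c' hcc
      exact (Set.disjoint_singleton.2 hcc).preimage m
  have hd : ∑ c, |(∫ g in m ⁻¹' {c}, rho v g ∂μ) - ∫ g in m ⁻¹' {c}, (1:ℝ) ∂μ| ≤ 1 / 10 := by
    refine le_trans ?_ hL1
    rw [← hfib _ iabs]
    refine Finset.sum_le_sum fun c _ => ?_
    rw [← integral_sub i1.integrableOn (integrable_const _).integrableOn]
    exact abs_integral_le_integral_abs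
  have hsum : ∑ c, μ.real (m ⁻¹' {c}) = 1 := by
    simp only [hP, hfib _ (integrable_const (1:ℝ))]
    simp
  calc (9:ℝ) / 10 ≤ ∑ c, (μ.real (m ⁻¹' {c}) -
        |(∫ g in m ⁻¹' {c}, rho v g ∂μ) - ∫ g in m ⁻¹' {c}, (1:ℝ) ∂μ|) := by
        rw [Finset.sum_sub_distrib, hsum]; linarith
    _ ≤ _ := Finset.sum_le_sum fun c _ => by
        rw [hQ, hP]
        refine le_min (by linarith [abs_nonneg ((∫ g in m ⁻¹' {c}, rho v g ∂μ) -
          ∫ g in m ⁻¹' {c}, (1:ℝ) ∂μ)]) ?_
        linarith [neg_abs_le ((∫ g in m ⁻¹' {c}, rho v g ∂μ) -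
          ∫ g in m ⁻¹' {c}, (1:ℝ) ∂μ)]

theorem gauss_tail {K : ℕ} (u : Fin K → ℝ) (A : ℝ) :
    (gpi K).real {g | A ≤ ∑ z, u z * g z} ≤ exp ((∑ z, u z ^ 2) / 2 - A) := by
  obtain ⟨i, h⟩ := gpi_exp u
  have hM := mul_meas_ge_le_integral_of_nonneg (μ := gpi K)
    (Filter.Eventually.of_forall fun g => (exp_pos (∑ z, u z * g z)).le) i (exp A)
  simp only [exp_le_exp, h] at hM
  rw [exp_sub, le_div_iff₀ (exp_pos _), mul_comm]
  exact hM

/-- The Mazur map from `ℓ_p` to `ℓ_2`, on one coordinate. -/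
noncomputable def mazur (p y : ℝ) : ℝ := Real.sign y * |y| ^ (p / 2)

theorem mazur_of_nonneg {p y : ℝ} (hp : 0 < p) (h : 0 ≤ y) : mazur p y = y ^ (p / 2) := by
  rcases h.lt_or_eq with h' | rfl
  · simp [mazur, Real.sign_of_pos h', abs_of_pos h']
  · simp [mazur, Real.zero_rpow (by linarith : p / 2 ≠ 0)]

theorem mazur_neg (p y : ℝ) : mazur p (-y) = -mazur p y := by
  simp [mazur, Real.sign_neg]

/-- Reduce a symmetric statement about two reals to two nonnegative ordered cases. -/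
theorem pair_cases {P : ℝ → ℝ → Prop} (hsymm : ∀ a b, P a b → P b a)
    (hneg : ∀ a b, P a b → P (-a) (-b)) (h1 : ∀ a b, 0 ≤ b → b ≤ a → P a b)
    (h2 : ∀ a b, 0 ≤ b → b ≤ a → P a (-b)) (a b : ℝ) : P a b := by
  have key : ∀ a b, |b| ≤ |a| → P a b := by
    intro a b hab
    rcases le_total 0 a with ha | ha <;> rcases le_total 0 b with hb | hb <;>
      simp only [abs_of_nonneg, abs_of_nonpos, ha, hb] at hab
    · exact h1 a b hb hab
    · have := h2 a (-b) (by linarith) hab
      simpa using this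
    · have := hneg _ _ (h2 (-a) b hb hab)
      simpa using this
    · have := hneg _ _ (h1 (-a) (-b) (by linarith) hab)
      simpa using this
  rcases le_total |b| |a| with h | h
  · exact key a b h
  · exact hsymm _ _ (key b a h)

theorem mazur_upper_high {p : ℝ} (hp : 2 ≤ p) (a b : ℝ) :
    |mazur p a - mazur p b| ≤ p * |a - b| * max |a| |b| ^ (p / 2 - 1) := by
  refine pair_cases (P := fun a b =>
    |mazur p a - mazur p b| ≤ p * |a - b| * max |a| |b| ^ (p / 2 - 1)) ?_ ?_ ?_ ?_ a b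
  · intro a b h; rwa [abs_sub_comm, abs_sub_comm b, max_comm]
  · intro a b h
    rw [mazur_neg, mazur_neg, abs_neg, abs_neg, ← neg_sub', abs_neg, ← neg_sub', abs_neg]
    exact h
  · intro a b hb hba
    have ha : 0 ≤ a := hb.trans hba
    rcases ha.lt_or_eq with ha' | rfl
    · rw [mazur_of_nonneg (by linarith) ha, mazur_of_nonneg (by linarith) hb, abs_of_nonneg ha,
        abs_of_nonneg hb, max_eq_left hba, abs_of_nonneg (sub_nonneg.2 hba),
        abs_of_nonneg (sub_nonneg.2 (rpow_le_rpow hb hba (by linarith)))]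
      have hber := one_add_mul_self_le_rpow_one_add (s := b / a - 1)
        (by linarith [div_nonneg hb ha]) (p := p / 2) (by linarith)
      rw [add_sub_cancel, div_rpow hb ha] at hber
      have hq : 0 < a ^ (p / 2) := rpow_pos_of_pos ha' _
      rw [le_div_iff₀ hq] at hber
      have e : a ^ (p / 2) = a * a ^ (p / 2 - 1) := by
        rw [rpow_sub_one ha'.ne']; field_simp
      have hh : 0 ≤ (a - b) * a ^ (p / 2 - 1) :=
        mul_nonneg (sub_nonneg.2 hba) (rpow_nonneg ha _)
      have e2 : (b / a - 1) * a ^ (p / 2) = -((a - b) * a ^ (p / 2 - 1)) := by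
        rw [e]; field_simp; ring
      nlinarith
    · obtain rfl : b = 0 := le_antisymm hba hb
      simp
  · intro a b hb hba
    have ha : 0 ≤ a := hb.trans hba
    rw [mazur_neg, mazur_of_nonneg (by linarith) ha, mazur_of_nonneg (by linarith) hb, abs_neg,
      abs_of_nonneg ha, abs_of_nonneg hb, max_eq_left hba, sub_neg_eq_add, sub_neg_eq_add,
      abs_of_nonneg (add_nonneg (rpow_nonneg ha _) (rpow_nonneg hb _)),
      abs_of_nonneg (add_nonneg ha hb)]
    rcases ha.lt_or_eq with ha' | rfl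
    · have e : a ^ (p / 2) = a * a ^ (p / 2 - 1) := by
        rw [rpow_sub_one ha'.ne']; field_simp
      have hbq := rpow_le_rpow hb hba (by linarith : 0 ≤ p / 2)
      have hr : 0 ≤ a ^ (p / 2 - 1) := rpow_nonneg ha _
      calc a ^ (p / 2) + b ^ (p / 2) ≤ 2 * (a * a ^ (p / 2 - 1)) := by linarith
        _ ≤ p * ((a + b) * a ^ (p / 2 - 1)) := by
          refine mul_le_mul hp (mul_le_mul_of_nonneg_right (by linarith) hr)
            (mul_nonneg ha hr) (by linarith)
        _ = _ := by ring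
    · obtain rfl : b = 0 := le_antisymm hba hb
      simp [Real.zero_rpow (by linarith : p / 2 ≠ 0)]

theorem mazur_lower_high {p : ℝ} (hp : 2 ≤ p) (a b : ℝ) :
    |a - b| ^ p ≤ (2:ℝ) ^ p * (mazur p a - mazur p b) ^ 2 := by
  have key : |a - b| ^ (p / 2) ≤ (2:ℝ) ^ (p / 2) * |mazur p a - mazur p b| := by
    refine pair_cases (P := fun a b =>
      |a - b| ^ (p / 2) ≤ (2:ℝ) ^ (p / 2) * |mazur p a - mazur p b|) ?_ ?_ ?_ ?_ a b
    · intro a b h; rwa [abs_sub_comm, abs_sub_comm (mazur p b)]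
    · intro a b h; rw [mazur_neg, mazur_neg, ← neg_sub', abs_neg, ← neg_sub', abs_neg]; exact h
    · intro a b hb hba
      have ha : 0 ≤ a := hb.trans hba
      rw [mazur_of_nonneg (by linarith) ha, mazur_of_nonneg (by linarith) hb,
        abs_of_nonneg (sub_nonneg.2 hba),
        abs_of_nonneg (sub_nonneg.2 (rpow_le_rpow hb hba (by linarith)))]
      have h := Real.add_rpow_le_rpow_add (sub_nonneg.2 hba) hb (by linarith : 1 ≤ p / 2)
      rw [sub_add_cancel] at h
      have h0 : 0 ≤ (a - b) ^ (p / 2) := rpow_nonneg (sub_nonneg.2 hba) _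
      refine le_trans ?_ (le_mul_of_one_le_left (by linarith)
        (Real.one_le_rpow (by norm_num) (by linarith)))
      linarith
    · intro a b hb hba
      have ha : 0 ≤ a := hb.trans hba
      rw [mazur_neg, mazur_of_nonneg (by linarith) ha, mazur_of_nonneg (by linarith) hb,
        sub_neg_eq_add, sub_neg_eq_add, abs_of_nonneg (add_nonneg ha hb),
        abs_of_nonneg (add_nonneg (rpow_nonneg ha _) (rpow_nonneg hb _))]
      calc (a + b) ^ (p / 2) ≤ (2 * a) ^ (p / 2) :=
            rpow_le_rpow (by linarith) (by linarith) (by linarith)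
        _ = (2:ℝ) ^ (p / 2) * a ^ (p / 2) := mul_rpow (by norm_num) ha
        _ ≤ _ := mul_le_mul_of_nonneg_left (le_add_of_nonneg_right (rpow_nonneg hb _))
            (rpow_nonneg (by norm_num) _)
  have h2 := pow_le_pow_left₀ (rpow_nonneg (abs_nonneg _) _) key 2
  rw [mul_pow, sq_abs, ← rpow_natCast (|a - b| ^ (p / 2)), ← rpow_natCast ((2:ℝ) ^ (p / 2)),
    ← rpow_mul (abs_nonneg _), ← rpow_mul (by norm_num)] at h2
  norm_num at h2
  exact h2

theorem mazur_upper_low {p : ℝ} (hp : 0 < p) (hp2 : p ≤ 2) (a b : ℝ) :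
    (mazur p a - mazur p b) ^ 2 ≤ 4 * |a - b| ^ p := by
  have key : |mazur p a - mazur p b| ≤ 2 * |a - b| ^ (p / 2) := by
    refine pair_cases (P := fun a b =>
      |mazur p a - mazur p b| ≤ 2 * |a - b| ^ (p / 2)) ?_ ?_ ?_ ?_ a b
    · intro a b h; rwa [abs_sub_comm, abs_sub_comm b]
    · intro a b h; rw [mazur_neg, mazur_neg, ← neg_sub', abs_neg, ← neg_sub', abs_neg]; exact h
    · intro a b hb hba
      have ha : 0 ≤ a := hb.trans hba
      rw [mazur_of_nonneg hp ha, mazur_of_nonneg hp hb, abs_of_nonneg (sub_nonneg.2 hba),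
        abs_of_nonneg (sub_nonneg.2 (rpow_le_rpow hb hba (by linarith)))]
      have h := Real.rpow_add_le_add_rpow (sub_nonneg.2 hba) hb (by linarith : 0 ≤ p / 2)
        (by linarith : p / 2 ≤ 1)
      rw [sub_add_cancel] at h
      linarith [rpow_nonneg (sub_nonneg.2 hba) (p / 2)]
    · intro a b hb hba
      have ha : 0 ≤ a := hb.trans hba
      rw [mazur_neg, mazur_of_nonneg hp ha, mazur_of_nonneg hp hb,
        sub_neg_eq_add, sub_neg_eq_add, abs_of_nonneg (add_nonneg ha hb),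
        abs_of_nonneg (add_nonneg (rpow_nonneg ha _) (rpow_nonneg hb _))]
      linarith [rpow_le_rpow hb hba (by linarith : 0 ≤ p / 2),
        rpow_le_rpow ha (le_add_of_nonneg_right hb) (by linarith : 0 ≤ p / 2)]
  have h2 := pow_le_pow_left₀ (abs_nonneg _) key 2
  rw [mul_pow, sq_abs, ← rpow_natCast (|a - b| ^ (p / 2)), ← rpow_mul (abs_nonneg _)] at h2
  norm_num at h2
  exact h2

theorem mazur_lower_low {p : ℝ} (hp : 1 < p) (hp2 : p < 2) (a b : ℝ) :
    |a - b| ≤ 2 * |mazur p a - mazur p b| * max |a| |b| ^ (1 - p / 2) := by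
  refine pair_cases (P := fun a b =>
    |a - b| ≤ 2 * |mazur p a - mazur p b| * max |a| |b| ^ (1 - p / 2)) ?_ ?_ ?_ ?_ a b
  · intro a b h; rwa [abs_sub_comm, abs_sub_comm (mazur p b), max_comm]
  · intro a b h
    rw [mazur_neg, mazur_neg, abs_neg, abs_neg, ← neg_sub', abs_neg, ← neg_sub', abs_neg]
    exact h
  · intro a b hb hba
    have ha : 0 ≤ a := hb.trans hba
    rcases ha.lt_or_eq with ha' | rfl
    · rw [mazur_of_nonneg (by linarith) ha, mazur_of_nonneg (by linarith) hb, abs_of_nonneg ha,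
        abs_of_nonneg hb, max_eq_left hba, abs_of_nonneg (sub_nonneg.2 hba),
        abs_of_nonneg (sub_nonneg.2 (rpow_le_rpow hb hba (by linarith)))]
      have hber := rpow_one_add_le_one_add_mul_self (s := b / a - 1)
        (by linarith [div_nonneg hb ha]) (p := p / 2) (by linarith) (by linarith)
      rw [add_sub_cancel, div_rpow hb ha] at hber
      have hq : 0 < a ^ (p / 2) := rpow_pos_of_pos ha' _
      rw [div_le_iff₀ hq] at hber
      have e : a ^ (p / 2) * a ^ (1 - p / 2) = a := by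
        rw [← rpow_add ha', add_sub_cancel, rpow_one]
      have hw : 0 ≤ a ^ (1 - p / 2) := rpow_nonneg ha _
      have h1 := mul_le_mul_of_nonneg_right hber hw
      rw [mul_assoc (1 + p / 2 * (b / a - 1)), e] at h1
      have e2 : (1 + p / 2 * (b / a - 1)) * a = a + p / 2 * (b - a) := by field_simp
      rw [e2] at h1
      nlinarith [mul_le_mul_of_nonneg_right (show (1:ℝ) / 2 ≤ p / 2 by linarith)
        (sub_nonneg.2 hba)]
    · obtain rfl : b = 0 := le_antisymm hba hb
      simp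
  · intro a b hb hba
    have ha : 0 ≤ a := hb.trans hba
    rw [mazur_neg, mazur_of_nonneg (by linarith) ha, mazur_of_nonneg (by linarith) hb, abs_neg,
      abs_of_nonneg ha, abs_of_nonneg hb, max_eq_left hba, sub_neg_eq_add, sub_neg_eq_add,
      abs_of_nonneg (add_nonneg (rpow_nonneg ha _) (rpow_nonneg hb _)),
      abs_of_nonneg (add_nonneg ha hb)]
    have hw : 0 ≤ a ^ (1 - p / 2) := rpow_nonneg ha _
    have e : a ^ (p / 2) * a ^ (1 - p / 2) = a := by
      rw [← rpow_add' ha (by norm_num), add_sub_cancel, rpow_one]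
    nlinarith [mul_nonneg (rpow_nonneg hb (p / 2)) hw]

theorem mul_rpow_le_add {X Y α β p : ℝ} (hX : 0 ≤ X) (hY : 0 ≤ Y) (hα : 0 ≤ α) (hβ : 0 ≤ β)
    (hαβ : α + β = p) (hp : p ≠ 0) : X ^ α * Y ^ β ≤ X ^ p + Y ^ p := by
  calc X ^ α * Y ^ β ≤ max X Y ^ α * max X Y ^ β :=
        mul_le_mul (rpow_le_rpow hX (le_max_left _ _) hα) (rpow_le_rpow hY (le_max_right _ _) hβ)
          (rpow_nonneg hY _) (rpow_nonneg (hX.trans (le_max_left _ _)) _)
    _ = max X Y ^ p := by
        rw [← rpow_add' (hX.trans (le_max_left _ _)) (by rwa [hαβ]), hαβ]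
    _ ≤ _ := by
        rcases le_total X Y with h | h
        · rw [max_eq_right h]; linarith [rpow_nonneg hX p]
        · rw [max_eq_left h]; linarith [rpow_nonneg hY p]

/-- Squared distance of the Mazur images. -/
noncomputable def mdist {K : ℕ} (p : ℝ) (u w : Fin K → ℝ) : ℝ :=
  ∑ z, (mazur p (u z) - mazur p (w z)) ^ 2

theorem sum_max_le {K : ℕ} {p R : ℝ} (u w : Fin K → ℝ)
    (hu : ∑ z, |u z| ^ p ≤ R ^ p) (hw : ∑ z, |w z| ^ p ≤ R ^ p) :
    ∑ z, max |u z| |w z| ^ p ≤ 2 * R ^ p := by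
  calc ∑ z, max |u z| |w z| ^ p ≤ ∑ z, (|u z| ^ p + |w z| ^ p) := by
        refine Finset.sum_le_sum fun z _ => ?_
        rcases max_cases |u z| |w z| with ⟨h, _⟩ | ⟨h, _⟩ <;> rw [h] <;>
          linarith [rpow_nonneg (abs_nonneg (u z)) p, rpow_nonneg (abs_nonneg (w z)) p]
    _ ≤ _ := by rw [Finset.sum_add_distrib]; linarith

theorem mdist_le_high {K : ℕ} {p t R : ℝ} (hp : 2 ≤ p) (ht : 0 < t) (hR : 0 < R)
    (u w : Fin K → ℝ) (hd : ∑ z, |u z - w z| ^ p ≤ t ^ p)
    (hu : ∑ z, |u z| ^ p ≤ R ^ p) (hw : ∑ z, |w z| ^ p ≤ R ^ p) :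
    mdist p u w ≤ 3 * p ^ 2 * (t ^ (2:ℝ) * R ^ (p - 2)) := by
  set c := t ^ (2:ℝ) * R ^ (p - 2) with hc
  have hc0 : 0 ≤ c := mul_nonneg (rpow_nonneg ht.le _) (rpow_nonneg hR.le _)
  have hpt : ∀ z, (mazur p (u z) - mazur p (w z)) ^ 2 ≤
      p ^ 2 * c * (|u z - w z| ^ p / t ^ p + max |u z| |w z| ^ p / R ^ p) := by
    intro z
    set A := |u z - w z|
    set B := max |u z| |w z|
    have hA : 0 ≤ A := abs_nonneg _
    have hB : 0 ≤ B := (abs_nonneg _).trans (le_max_left _ _)
    have h := pow_le_pow_left₀ (abs_nonneg _) (mazur_upper_high hp (u z) (w z)) 2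
    rw [sq_abs, mul_pow, mul_pow, ← rpow_natCast (B ^ (p / 2 - 1)), ← rpow_mul hB,
      ← rpow_natCast A] at h
    refine h.trans ?_
    have hy := mul_rpow_le_add (α := 2) (β := p - 2) (p := p) (div_nonneg hA ht.le)
      (div_nonneg hB hR.le) (by norm_num) (by linarith) (by ring) (by linarith)
    rw [div_rpow hA ht.le, div_rpow hB hR.le, div_rpow hA ht.le, div_rpow hB hR.le,
      div_mul_div_comm, div_le_iff₀ (mul_pos (rpow_pos_of_pos ht _) (rpow_pos_of_pos hR _))] at hy
    have e : (p / 2 - 1) * ((2:ℕ):ℝ) = p - 2 := by push_cast; ring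
    rw [e, Nat.cast_ofNat, mul_assoc, mul_assoc]
    refine mul_le_mul_of_nonneg_left (hy.trans_eq ?_) (sq_nonneg p)
    rw [hc]; ring
  calc mdist p u w ≤ ∑ z, p ^ 2 * c * (|u z - w z| ^ p / t ^ p + max |u z| |w z| ^ p / R ^ p) :=
        Finset.sum_le_sum fun z _ => hpt z
    _ = p ^ 2 * c * ((∑ z, |u z - w z| ^ p) / t ^ p + (∑ z, max |u z| |w z| ^ p) / R ^ p) := by
        rw [← Finset.mul_sum, Finset.sum_add_distrib, Finset.sum_div, Finset.sum_div]
    _ ≤ p ^ 2 * c * (1 + 2) := by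
        refine mul_le_mul_of_nonneg_left (add_le_add ((div_le_one (rpow_pos_of_pos ht _)).2 hd) ?_)
          (mul_nonneg (sq_nonneg p) hc0)
        exact (div_le_iff₀ (rpow_pos_of_pos hR _)).2 (sum_max_le u w hu hw)
    _ = _ := by ring

theorem mdist_le_low {K : ℕ} {p t : ℝ} (hp : 0 < p) (hp2 : p ≤ 2) (u w : Fin K → ℝ)
    (hd : ∑ z, |u z - w z| ^ p ≤ t ^ p) : mdist p u w ≤ 4 * t ^ p := by
  calc mdist p u w ≤ ∑ z, 4 * |u z - w z| ^ p :=
        Finset.sum_le_sum fun z _ => mazur_upper_low hp hp2 (u z) (w z)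
    _ ≤ 4 * t ^ p := by rw [← Finset.mul_sum]; linarith

theorem dist_le_high {K : ℕ} {p Q : ℝ} (hp : 2 ≤ p) (u w : Fin K → ℝ) (hQ : mdist p u w ≤ Q) :
    ∑ z, |u z - w z| ^ p ≤ (2:ℝ) ^ p * Q := by
  refine (Finset.sum_le_sum fun z _ => mazur_lower_high hp (u z) (w z)).trans ?_
  rw [← Finset.mul_sum]
  exact mul_le_mul_of_nonneg_left hQ (rpow_nonneg (by norm_num) _)

theorem dist_le_low {K : ℕ} {p R Q : ℝ} (hp : 1 < p) (hp2 : p < 2) (hR : 0 < R) (hQ0 : 0 < Q)
    (u w : Fin K → ℝ) (hu : ∑ z, |u z| ^ p ≤ R ^ p) (hw : ∑ z, |w z| ^ p ≤ R ^ p)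
    (hQ : mdist p u w ≤ Q) :
    ∑ z, |u z - w z| ^ p ≤ 12 * (Q ^ (p / 2) * (R ^ p) ^ (1 - p / 2)) := by
  set c := Q ^ (p / 2) * (R ^ p) ^ (1 - p / 2) with hc
  have hRp := rpow_pos_of_pos hR p
  have hc0 : 0 ≤ c := mul_nonneg (rpow_nonneg hQ0.le _) (rpow_nonneg hRp.le _)
  have hpt : ∀ z, |u z - w z| ^ p ≤
      4 * c * ((mazur p (u z) - mazur p (w z)) ^ 2 / Q + max |u z| |w z| ^ p / R ^ p) := by
    intro z
    set A := |mazur p (u z) - mazur p (w z)|
    set B := max |u z| |w z|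
    have hA : 0 ≤ A := abs_nonneg _
    have hB : 0 ≤ B := (abs_nonneg _).trans (le_max_left _ _)
    have hBp := rpow_nonneg hB p
    have h := rpow_le_rpow (abs_nonneg _) (mazur_lower_low hp hp2 (u z) (w z))
      (by linarith : 0 ≤ p)
    rw [mul_rpow (by positivity) (rpow_nonneg hB _), mul_rpow (by norm_num) hA, ← rpow_mul hB,
      mul_comm (1 - p / 2) p, rpow_mul hB] at h
    have h4 : (2:ℝ) ^ p ≤ 4 := by
      have := rpow_le_rpow_of_exponent_le (x := (2:ℝ)) (by norm_num) hp2.le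
      norm_num at this
      exact this
    have hy := mul_rpow_le_add (α := p / 2) (β := 1 - p / 2) (p := (1:ℝ))
      (div_nonneg (sq_nonneg A) hQ0.le) (div_nonneg hBp hRp.le) (by linarith) (by linarith)
      (by ring) one_ne_zero
    have eA : (A ^ 2) ^ (p / 2) = A ^ p := by
      rw [← rpow_natCast A 2, ← rpow_mul hA]; congr 1; push_cast; ring
    rw [rpow_one, rpow_one, div_rpow (sq_nonneg A) hQ0.le, div_rpow hBp hRp.le, eA,
      div_mul_div_comm, div_le_iff₀ (mul_pos (rpow_pos_of_pos hQ0 _) (rpow_pos_of_pos hRp _))] at hy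
    refine h.trans ((mul_le_mul_of_nonneg_right (mul_le_mul_of_nonneg_right h4 (rpow_nonneg hA _))
      (rpow_nonneg hBp _)).trans ?_)
    rw [mul_assoc, mul_assoc, sq_abs] at *
    rw [hc] at *
    linarith
  calc ∑ z, |u z - w z| ^ p
      ≤ ∑ z, 4 * c * ((mazur p (u z) - mazur p (w z)) ^ 2 / Q + max |u z| |w z| ^ p / R ^ p) :=
        Finset.sum_le_sum fun z _ => hpt z
    _ = 4 * c * (mdist p u w / Q + (∑ z, max |u z| |w z| ^ p) / R ^ p) := by
        rw [mdist, ← Finset.mul_sum, Finset.sum_add_distrib, Finset.sum_div, Finset.sum_div]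
    _ ≤ 4 * c * (1 + 2) := by
        refine mul_le_mul_of_nonneg_left (add_le_add ((div_le_one hQ0).2 hQ) ?_) (by positivity)
        exact (div_le_iff₀ hRp).2 (sum_max_le u w hu hw)
    _ = _ := by ring

/-- A measurable nearest-point rule. -/
theorem exists_nearest {K n : ℕ} (S : Finset (Fin n)) (hS : S.Nonempty)
    (M : Fin n → Fin K → ℝ) :
    ∃ m : (Fin K → ℝ) → Fin n, Measurable m ∧ (∀ y, m y ∈ S) ∧
      ∀ y, ∀ c ∈ S, ∑ z, (y z - M (m y) z) ^ 2 ≤ ∑ z, (y z - M c z) ^ 2 := by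
  classical
  set F : Fin n → (Fin K → ℝ) → ℝ := fun c y => ∑ z, (y z - M c z) ^ 2
  have hne : ∀ y, (S.filter fun c => ∀ c' ∈ S, F c y ≤ F c' y).Nonempty := fun y => by
    obtain ⟨c, hc, h⟩ := S.exists_min_image (fun c => F c y) hS
    exact ⟨c, Finset.mem_filter.2 ⟨hc, h⟩⟩
  refine ⟨fun y => (S.filter fun c => ∀ c' ∈ S, F c y ≤ F c' y).min' (hne y), ?_,
    fun y => (Finset.mem_filter.1 (Finset.min'_mem _ (hne y))).1,
    fun y => (Finset.mem_filter.1 (Finset.min'_mem _ (hne y))).2⟩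
  refine measurable_to_countable' fun c => ?_
  have hF : ∀ c, Measurable (F c) := fun c =>
    Finset.measurable_sum _ fun z _ => (((measurable_pi_apply z).sub_const _).pow_const 2)
  have hmin : ∀ c, MeasurableSet {y | c ∈ S ∧ ∀ c' ∈ S, F c y ≤ F c' y} := fun c => by
    refine measurableSet_setOfPred.2 ?_
    exact measurable_const.and (Measurable.forall fun c' => Measurable.forall fun _ =>
      measurableSet_setOfPred.1 (measurableSet_le (hF c) (hF c')))
  have e : (fun y => (S.filter fun c => ∀ c' ∈ S, F c y ≤ F c' y).min' (hne y)) ⁻¹' {c} =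
      {y | c ∈ S ∧ ∀ c' ∈ S, F c y ≤ F c' y} \
        ⋃ b : {b // b < c}, {y | b.1 ∈ S ∧ ∀ c' ∈ S, F b.1 y ≤ F c' y} := by
    ext y
    simp only [Set.mem_preimage, Set.mem_singleton_iff, Finset.min'_eq_iff, Finset.mem_filter,
      Set.mem_sdiff, Set.mem_ofPred_eq, Set.mem_iUnion, Subtype.exists, exists_prop, not_exists,
      not_and]
    constructor
    · rintro ⟨h1, h2⟩
      exact ⟨h1, fun b hb hbS hbm => absurd hb (not_lt.2 (h2 b ⟨hbS, hbm⟩))⟩
    · rintro ⟨h1, h2⟩
      exact ⟨h1, fun b hb => le_of_not_gt fun hlt => h2 b hlt hb.1 hb.2⟩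
  rw [e]
  exact (hmin c).diff (MeasurableSet.iUnion fun b => hmin b.1)

theorem sum_min_mix {α β : Type*} [Fintype α] [Fintype β] (f g : α → ℝ) (P Q : α → β → ℝ)
    (hf : ∀ a, 0 ≤ f a) (hg : ∀ a, 0 ≤ g a) (hP : ∀ a c, 0 ≤ P a c) (hQ : ∀ a c, 0 ≤ Q a c)
    {θ : ℝ} (h : ∀ a, 0 < f a → 0 < g a → θ ≤ ∑ c, min (P a c) (Q a c)) :
    θ * ∑ a, min (f a) (g a) ≤ ∑ c, min (∑ a, f a * P a c) (∑ a, g a * Q a c) := by
  calc θ * ∑ a, min (f a) (g a) = ∑ a, min (f a) (g a) * θ := by
        rw [Finset.mul_sum]; simp only [mul_comm]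
    _ ≤ ∑ a, ∑ c, min (f a * P a c) (g a * Q a c) := by
        refine Finset.sum_le_sum fun a _ => ?_
        have hle : ∀ c, min (f a) (g a) * min (P a c) (Q a c) ≤ min (f a * P a c) (g a * Q a c) :=
          fun c => le_min
            (mul_le_mul (min_le_left _ _) (min_le_left _ _) (le_min (hP a c) (hQ a c)) (hf a))
            (mul_le_mul (min_le_right _ _) (min_le_right _ _) (le_min (hP a c) (hQ a c)) (hg a))
        rcases (le_min (hf a) (hg a)).lt_or_eq with h0 | h0
        · refine le_trans ?_ (Finset.sum_le_sum fun c _ => hle c)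
          rw [← Finset.mul_sum]
          exact mul_le_mul_of_nonneg_left
            (h a (h0.trans_le (min_le_left _ _)) (h0.trans_le (min_le_right _ _))) h0.le
        · rw [← h0, zero_mul]
          exact Finset.sum_nonneg fun c _ => le_min (mul_nonneg (hf a) (hP a c))
            (mul_nonneg (hg a) (hQ a c))
    _ = ∑ c, ∑ a, min (f a * P a c) (g a * Q a c) := Finset.sum_comm
    _ ≤ _ := Finset.sum_le_sum fun c _ => le_min
        (Finset.sum_le_sum fun a _ => min_le_left _ _)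
        (Finset.sum_le_sum fun a _ => min_le_right _ _)

/-- Stage one: the uniform law on a ball of random radius. -/
theorem exists_coarse {n N : ℕ} (hN : 0 < N) (hN16 : 16 * Real.log n ≤ N)
    (d : Fin n → Fin n → ℝ) (hd0 : ∀ i, d i i = 0) (hsym : ∀ i j, d i j = d j i)
    (htri : ∀ i j k, d i k ≤ d i j + d j k) {t : ℝ} (ht : 0 < t) :
    ∃ f : Fin n → Fin n → ℝ, (∀ i a, 0 ≤ f i a) ∧ (∀ i, ∑ a, f i a = 1) ∧
      (∀ i a, 0 < f i a → d i a ≤ 2 * N * t) ∧
      ∀ i j, d i j ≤ t → 15 / 16 ≤ ∑ a, min (f i a) (f j a) := by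
  classical
  let B : Fin n → ℝ → Finset (Fin n) := fun i r => univ.filter fun a => d i a ≤ r
  let r : ℕ → ℝ := fun k => (2 * k + 1) * t
  have hBpos : ∀ i x, 0 ≤ x → (0:ℝ) < (B i x).card := fun i x hx => by
    exact_mod_cast Finset.card_pos.2 ⟨i, Finset.mem_filter.2 ⟨mem_univ _, by rw [hd0]; exact hx⟩⟩
  have hr0 : ∀ k : ℕ, 0 ≤ r k := fun k => mul_nonneg (by positivity) ht.le
  have hterm : ∀ i k (P : Prop) [Decidable P],
      (0:ℝ) ≤ if P then ((B i (r k)).card:ℝ)⁻¹ else 0 := fun i k P _ =>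
    ite_nonneg (inv_nonneg.2 (Nat.cast_nonneg _)) le_rfl
  refine ⟨fun i a => (∑ k ∈ range N, if d i a ≤ r k then ((B i (r k)).card:ℝ)⁻¹ else 0) / N,
    fun i a => div_nonneg (Finset.sum_nonneg fun k _ => hterm i k (d i a ≤ r k)) (Nat.cast_nonneg _),
    fun i => ?_, fun i a h => ?_, fun i j hij => ?_⟩
  · rw [← Finset.sum_div, Finset.sum_comm, div_eq_one_iff_eq (Nat.cast_ne_zero.2 hN.ne')]
    calc ∑ k ∈ range N, ∑ a, (if d i a ≤ r k then ((B i (r k)).card:ℝ)⁻¹ else 0)
        = ∑ k ∈ range N, (1:ℝ) := Finset.sum_congr rfl fun k _ => by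
          rw [← Finset.sum_filter, Finset.sum_const, nsmul_eq_mul]
          exact mul_inv_cancel₀ (hBpos i _ (hr0 k)).ne'
      _ = N := by simp
  · by_contra hcon
    push Not at hcon
    refine h.ne' (div_eq_zero_iff.2 (Or.inl (Finset.sum_eq_zero fun k hk => if_neg ?_)))
    have : (k:ℝ) + 1 ≤ N := by exact_mod_cast Finset.mem_range.1 hk
    simp only [r]
    nlinarith
  · set g : ℕ → ℝ := fun k => Real.log ((B i (2 * k * t)).card) with hg
    have hk : ∀ k, 1 - (g (k + 1) - g k) ≤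
        ∑ a, min (if d i a ≤ r k then ((B i (r k)).card:ℝ)⁻¹ else 0)
          (if d j a ≤ r k then ((B j (r k)).card:ℝ)⁻¹ else 0) := by
      intro k
      set lo := B i (2 * k * t)
      set hi := B i (2 * ((k + 1 : ℕ) : ℝ) * t)
      have hlo : (0:ℝ) < lo.card := hBpos i _ (by positivity)
      have hhi : (0:ℝ) < hi.card := hBpos i _ (by positivity)
      have h1 : 1 - (g (k + 1) - g k) ≤ (lo.card:ℝ) * (hi.card:ℝ)⁻¹ := by
        have := Real.one_sub_inv_le_log_of_pos (div_pos hlo hhi)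
        have h2 := add_one_le_exp (Real.log ((lo.card:ℝ) / hi.card))
        rw [exp_log (div_pos hlo hhi), Real.log_div hlo.ne' hhi.ne'] at h2
        rw [← div_eq_mul_inv]
        simp only [hg]
        linarith
      refine h1.trans ?_
      rw [← nsmul_eq_mul, ← Finset.sum_const]
      refine (Finset.sum_le_sum fun a ha => ?_).trans (Finset.sum_le_univ_sum_of_nonneg fun a =>
        le_min (hterm _ _ _) (hterm _ _ _))
      have hai : d i a ≤ 2 * k * t := (Finset.mem_filter.1 ha).2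
      have hia : d i a ≤ r k := by simp only [r]; linarith
      have hja : d j a ≤ r k := by
        have := htri j i a; rw [hsym j i] at this; simp only [r]; linarith
      rw [if_pos hia, if_pos hja]
      have e : 2 * ((k + 1 : ℕ) : ℝ) * t = r k + t := by simp only [r]; push_cast; ring
      refine le_min (inv_anti₀ (hBpos i _ (hr0 k)) ?_) (inv_anti₀ (hBpos j _ (hr0 k)) ?_) <;>
        refine Nat.cast_le.2 (Finset.card_le_card fun b hb => ?_) <;>
        refine Finset.mem_filter.2 ⟨mem_univ _, ?_⟩ <;>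
        have hb' := (Finset.mem_filter.1 hb).2
      · rw [e]; linarith
      · rw [e]; linarith [htri i j b]
    have hsum : (N:ℝ) - Real.log n ≤ ∑ k ∈ range N, (1 - (g (k + 1) - g k)) := by
      rw [Finset.sum_sub_distrib, Finset.sum_range_sub g]
      have h1 : g N ≤ Real.log n := Real.log_le_log (hBpos i _ (by positivity))
        (by exact_mod_cast (Finset.card_le_univ _).trans_eq (Fintype.card_fin n))
      have h2 : 0 ≤ g 0 := Real.log_natCast_nonneg _
      simp
      linarith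
    calc (15:ℝ) / 16 ≤ ((N:ℝ) - Real.log n) / N := by
          rw [le_div_iff₀ (by positivity)]; linarith
      _ ≤ (∑ k ∈ range N, ∑ a, min (if d i a ≤ r k then ((B i (r k)).card:ℝ)⁻¹ else 0)
          (if d j a ≤ r k then ((B j (r k)).card:ℝ)⁻¹ else 0)) / N :=
          div_le_div_of_nonneg_right (hsum.trans (Finset.sum_le_sum fun k _ => hk k))
            (Nat.cast_nonneg _)
      _ ≤ _ := by
          rw [Finset.sum_comm, Finset.sum_div]
          refine Finset.sum_le_sum fun a _ => ?_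
          beta_reduce
          rw [min_div_div_right (Nat.cast_nonneg N)]
          refine div_le_div_of_nonneg_right (le_min ?_ ?_) (Nat.cast_nonneg _) <;>
            refine Finset.sum_le_sum fun k _ => ?_
          · exact min_le_left _ _
          · exact min_le_right _ _

/-- Stage two, and composition, for a scale `T` of the Mazur images. -/
theorem exists_kernel_aux {p : ℝ} (hp : 1 < p) {n K : ℕ}
    (x : Fin n → Fin K → ℝ) {t : ℝ} (ht : 0 < t) {N : ℕ} (hN : 0 < N)
    (hN16 : 16 * Real.log n ≤ N) {T Q₀ Bd : ℝ} (hT : 0 < T) (hBd : 0 ≤ Bd)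
    (hup : ∀ u w : Fin K → ℝ, ∑ z, |u z - w z| ^ p ≤ t ^ p →
      ∑ z, |u z| ^ p ≤ (2 * N * t) ^ p → ∑ z, |w z| ^ p ≤ (2 * N * t) ^ p →
      mdist p u w ≤ T ^ 2)
    (hback : ∀ u w : Fin K → ℝ, ∑ z, |u z| ^ p ≤ (2 * N * t) ^ p →
      ∑ z, |w z| ^ p ≤ (2 * N * t) ^ p → mdist p u w ≤ Q₀ →
      ∑ z, |u z - w z| ^ p ≤ Bd * t ^ p)
    (htail : (n:ℝ) * (exp (-(Q₀ / (8 * (20 * T) ^ 2))) * (4 * N) ^ p) ≤ 1) :
    ∃ ν : Fin n → Fin n → ℝ, (∀ i c, 0 ≤ ν i c) ∧ (∀ i, ∑ c, ν i c ≤ 1) ∧
      (∀ i j, pdist p (x i) (x j) ≤ t → 3 / 4 ≤ ∑ c, min (ν i c) (ν j c)) ∧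
      ∀ i, ∑ c, ν i c * (pdist p (x i) (x c) / t) ^ p ≤ Bd + 1 := by
  classical
  have hp0 : 0 < p := by linarith
  set R : ℝ := 2 * N * t with hR
  set d : Fin n → Fin n → ℝ := fun i j => pdist p (x i) (x j)
  have htri : ∀ i j k, d i k ≤ d i j + d j k := fun i j k => pdist_triangle hp.le _ _ _
  obtain ⟨f, hf0, hf1, hfR, hfo⟩ := exists_coarse hN hN16 d (fun i => pdist_self hp0 _)
    (fun i j => pdist_comm _ _) htri ht
  set S : Fin n → Finset (Fin n) := fun a => univ.filter fun c => d c a ≤ R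
  have hR0 : 0 ≤ R := by positivity
  have hSne : ∀ a, (S a).Nonempty := fun a =>
    ⟨a, Finset.mem_filter.2 ⟨mem_univ _, by simp only [d, pdist_self hp0]; exact hR0⟩⟩
  set M : Fin n → Fin n → Fin K → ℝ := fun a c z => mazur p (x c z - x a z)
  choose m hmm hmS hmin using fun a => exists_nearest (S a) (hSne a) (M a)
  set s := 20 * T with hs
  have hs0 : 0 < s := by positivity
  set φ : Fin n → Fin n → (Fin K → ℝ) → Fin n := fun a i g => m a (fun z => M a i z + s * g z)
  have hφm : ∀ a i, Measurable (φ a i) := fun a i => (hmm a).comp (by fun_prop)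
  set P : Fin n → Fin n → Fin n → ℝ := fun a i c => (gpi K).real (φ a i ⁻¹' {c})
  have hPnn : ∀ a i c, 0 ≤ P a i c := fun a i c => measureReal_nonneg
  have hP1 : ∀ a i, ∑ c, P a i c = 1 := fun a i => by
    simp only [P]
    rw [sum_measureReal_preimage_singleton _ fun c _ => hφm a i (measurableSet_singleton c)]
    simp
  have hbound : ∀ a i, d i a ≤ R → ∑ z, |x i z - x a z| ^ p ≤ R ^ p := fun a i h => by
    rw [← pdist_rpow hp0]; exact rpow_le_rpow (pdist_nonneg _ _) h hp0.le
  have hdiff : ∀ a i j, ∑ z, |(x i z - x a z) - (x j z - x a z)| ^ p = d i j ^ p := fun a i j => by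
    rw [pdist_rpow hp0]; simp
  refine ⟨fun i c => ∑ a, f i a * P a i c,
    fun i c => Finset.sum_nonneg fun a _ => mul_nonneg (hf0 i a) (hPnn a i c),
    fun i => le_of_eq ?_, fun i j hij => ?_, fun i => ?_⟩
  · rw [Finset.sum_comm]
    simp only [← Finset.mul_sum, hP1, mul_one, hf1]
  · refine le_trans ?_ (sum_min_mix (f i) (f j) (fun a => P a i) (fun a => P a j) (hf0 i) (hf0 j)
      (fun a => hPnn a i) (fun a => hPnn a j) (θ := 9 / 10) fun a hi hj => ?_)
    · linarith [hfo i j hij]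
    have h := hup (fun z => x i z - x a z) (fun z => x j z - x a z)
      (by rw [hdiff]; exact rpow_le_rpow (pdist_nonneg _ _) hij hp0.le)
      (hbound a i (hfR i a hi)) (hbound a j (hfR j a hj))
    have hv : ∑ z, ((M a j z - M a i z) / s) ^ 2 ≤ 1 / 400 := by
      simp only [div_pow, ← Finset.sum_div]
      rw [div_le_iff₀ (by positivity)]
      refine le_trans (le_of_eq (Finset.sum_congr rfl fun z _ => ?_)) (h.trans_eq ?_)
      · simp only [M]; ring
      · simp only [hs]; ring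
    have e : (fun g => φ a i (g + fun z => (M a j z - M a i z) / s)) = φ a j := by
      funext g
      simp only [φ, Pi.add_apply]
      congr 1
      funext z
      field_simp
      ring
    have := gauss_stable (φ a i) (hφm a i) _ hv
    rwa [e] at this
  · have hia : ∀ a, 0 < f i a → ∑ c, P a i c * (d i c / t) ^ p ≤ Bd + 1 := by
      intro a ha
      have hiS : i ∈ S a := Finset.mem_filter.2 ⟨mem_univ _, hfR i a ha⟩
      have hterm : ∀ c, P a i c * (d i c / t) ^ p ≤
          P a i c * Bd + exp (-(Q₀ / (8 * s ^ 2))) * (4 * N) ^ p := by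
        intro c
        have hexp : 0 ≤ exp (-(Q₀ / (8 * s ^ 2))) * (4 * (N:ℝ)) ^ p := by positivity
        by_cases hc : c ∈ S a
        · have hca : d c a ≤ R := (Finset.mem_filter.1 hc).2
          set u : Fin K → ℝ := fun z => x i z - x a z
          set w : Fin K → ℝ := fun z => x c z - x a z
          by_cases hQ : mdist p u w ≤ Q₀
          · have h := hback u w (hbound a i (hfR i a ha)) (hbound a c hca) hQ
            rw [hdiff] at h
            have h2 : (d i c / t) ^ p ≤ Bd := by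
              rw [div_rpow (pdist_nonneg _ _) ht.le]
              exact (div_le_iff₀ (rpow_pos_of_pos ht p)).2 h
            linarith [mul_le_mul_of_nonneg_left h2 (hPnn a i c)]
          · push Not at hQ
            set Q := mdist p u w with hQdef
            have hsub : φ a i ⁻¹' {c} ⊆
                {g | Q / (4 * s ^ 2) ≤ ∑ z, ((M a c z - M a i z) / (2 * s)) * g z} := by
              intro g hg
              have h := hmin a (fun z => M a i z + s * g z) i hiS
              rw [show m a (fun z => M a i z + s * g z) = c from hg] at h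
              have e : ∑ z, (M a i z + s * g z - M a c z) ^ 2 =
                  ∑ z, (M a i z + s * g z - M a i z) ^ 2 +
                    (Q - 4 * s ^ 2 * ∑ z, ((M a c z - M a i z) / (2 * s)) * g z) := by
                simp only [hQdef, mdist, M, u, w, Finset.mul_sum, ← Finset.sum_sub_distrib,
                  ← Finset.sum_add_distrib]
                refine Finset.sum_congr rfl fun z _ => ?_
                field_simp
                ring
              rw [e] at h
              show Q / (4 * s ^ 2) ≤ _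
              rw [div_le_iff₀ (by positivity)]
              linarith
            have hP : P a i c ≤ exp (-(Q₀ / (8 * s ^ 2))) := by
              refine (measureReal_mono hsub).trans ((gauss_tail _ _).trans (exp_le_exp.2 ?_))
              have eu : ∑ z, ((M a c z - M a i z) / (2 * s)) ^ 2 = Q / (4 * s ^ 2) := by
                simp only [hQdef, mdist, M, u, w, Finset.sum_div]
                exact Finset.sum_congr rfl fun z _ => by ring
              rw [eu]
              have : Q₀ / (8 * s ^ 2) ≤ Q / (8 * s ^ 2) :=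
                div_le_div_of_nonneg_right hQ.le (by positivity)
              have e2 : Q / (4 * s ^ 2) = 2 * (Q / (8 * s ^ 2)) := by ring
              linarith
            have hd : (d i c / t) ^ p ≤ (4 * (N:ℝ)) ^ p := by
              refine rpow_le_rpow (div_nonneg (pdist_nonneg _ _) ht.le) ?_ hp0.le
              rw [div_le_iff₀ ht]
              have := htri i a c
              have hac : d a c = d c a := pdist_comm _ _
              have := hfR i a ha
              rw [hR] at *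
              linarith
            calc P a i c * (d i c / t) ^ p
                ≤ exp (-(Q₀ / (8 * s ^ 2))) * (4 * (N:ℝ)) ^ p :=
                  mul_le_mul hP hd (rpow_nonneg (div_nonneg (pdist_nonneg _ _) ht.le) _)
                    (exp_pos _).le
              _ ≤ _ := le_add_of_nonneg_left (mul_nonneg (hPnn a i c) hBd)
        · have : P a i c = 0 := by
            have : φ a i ⁻¹' {c} = ∅ := by
              ext g
              simp only [Set.mem_preimage, Set.mem_singleton_iff, Set.mem_empty_iff_false, iff_false]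
              exact fun h => hc (h ▸ hmS a _)
            simp [P, this]
          rw [this, zero_mul, zero_mul, zero_add]
          exact hexp
      refine (Finset.sum_le_sum fun c _ => hterm c).trans ?_
      rw [Finset.sum_add_distrib, ← Finset.sum_mul, hP1, one_mul, Finset.sum_const,
        Finset.card_univ, Fintype.card_fin, nsmul_eq_mul, hs]
      linarith
    calc ∑ c, (∑ a, f i a * P a i c) * (d i c / t) ^ p
        = ∑ a, f i a * ∑ c, P a i c * (d i c / t) ^ p := by
          simp only [Finset.sum_mul, Finset.mul_sum, mul_assoc]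
          exact Finset.sum_comm
      _ ≤ ∑ a, f i a * (Bd + 1) := by
          refine Finset.sum_le_sum fun a _ => ?_
          rcases (hf0 i a).lt_or_eq with h | h
          · exact mul_le_mul_of_nonneg_left (hia a h) h.le
          · simp [← h]
      _ = Bd + 1 := by rw [← Finset.sum_mul, hf1, one_mul]

theorem exists_kernel {p : ℝ} (hp : 1 < p) : ∃ C σ : ℝ, 0 < C ∧ 0 < σ ∧ σ ≤ 1 ∧
  ∀ (n K : ℕ), 2 ≤ n → ∀ (x : Fin n → Fin K → ℝ) (t : ℝ), 0 < t →
  ∃ ν : Fin n → Fin n → ℝ, (∀ i c, 0 ≤ ν i c) ∧ (∀ i, ∑ c, ν i c ≤ 1) ∧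
    (∀ i j, pdist p (x i) (x j) ≤ t → 3 / 4 ≤ ∑ c, min (ν i c) (ν j c)) ∧
    ∀ i, ∑ c, ν i c * (pdist p (x i) (x c) / t) ^ p ≤ C * Real.log n ^ (p - σ) := by
  have hp0 : 0 < p := by linarith
  set A : ℝ := 1 + 8 * p with hA
  have hA0 : 0 < A := by linarith
  set c₁ : ℝ := (2:ℝ) ^ p * (8 * 400 * (3 * p ^ 2) * A * (38:ℝ) ^ (p - 2)) with hc₁
  set c₂ : ℝ := 12 * ((8 * 400 * 4 * A) ^ (p / 2) * (38:ℝ) ^ (p * (1 - p / 2))) with hc₂
  set σ : ℝ := if 2 ≤ p then 1 else p * (p - 1) / 2 with hσ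
  have hσ0 : 0 < σ := by
    rw [hσ]; split_ifs
    · norm_num
    · nlinarith
  have hσ1 : σ ≤ 1 := by
    rw [hσ]; split_ifs
    · norm_num
    · nlinarith
  have hps : 0 < p - σ := by linarith
  have hc₁0 : 0 < c₁ := by positivity
  have hc₂0 : 0 < c₂ := by positivity
  refine ⟨c₁ + c₂ + (Real.log 2 ^ (p - σ))⁻¹, σ, by positivity, hσ0, hσ1,
    fun n K hn x t ht => ?_⟩
  set l := Real.log n with hl
  have hn2 : (2:ℝ) ≤ n := by exact_mod_cast hn
  have hl2 : Real.log 2 ≤ l := Real.log_le_log (by norm_num) hn2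
  have hl0 : 0 < l := lt_of_lt_of_le (Real.log_pos (by norm_num)) hl2
  set N := ⌈16 * l⌉₊ + 1 with hN
  have hN16 : 16 * l ≤ N := by
    rw [hN]; push_cast; linarith [Nat.le_ceil (16 * l)]
  have hNup : (N:ℝ) ≤ 16 * l + 2 := by
    rw [hN]; push_cast; linarith [Nat.ceil_lt_add_one (show 0 ≤ 16 * l by positivity)]
  have hN38 : 2 * (N:ℝ) ≤ 38 * l := by linarith [Real.log_two_gt_d9]
  have hNpos : 0 < N := by omega
  set R : ℝ := 2 * N * t with hR
  have hR0 : 0 < R := by positivity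
  set L : ℝ := A * l with hL
  have htail : ∀ T : ℝ, 0 < T →
      (n:ℝ) * (exp (-(8 * (20 * T) ^ 2 * L / (8 * (20 * T) ^ 2))) * (4 * (N:ℝ)) ^ p) ≤ 1 := by
    intro T hT
    rw [mul_div_assoc, mul_comm (8 * (20 * T) ^ 2), div_mul_cancel₀ _ (by positivity)]
    have h4 : 4 * (N:ℝ) ≤ (n:ℝ) ^ (8:ℝ) := by
      have hln : l ≤ n := (Real.log_le_sub_one_of_pos (by linarith)).trans (by linarith)
      have h7 : (128:ℝ) ≤ (n:ℝ) ^ 7 := by
        have := pow_le_pow_left₀ (by norm_num) hn2 7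
        norm_num at this
        exact this
      have h8 : (n:ℝ) ^ (8:ℝ) = (n:ℝ) * (n:ℝ) ^ 7 := by
        rw [show (8:ℝ) = ((8:ℕ):ℝ) by norm_num, rpow_natCast]; ring
      rw [h8]
      nlinarith [mul_le_mul_of_nonneg_left h7 (by linarith : (0:ℝ) ≤ n)]
    have h5 : (4 * (N:ℝ)) ^ p ≤ (n:ℝ) ^ (8 * p) := by
      rw [rpow_mul (by linarith)]
      exact rpow_le_rpow (by positivity) h4 hp0.le
    have e : exp (-L) = (n:ℝ) ^ (-A) := by
      rw [rpow_def_of_pos (by linarith), hL, hl]; ring_nf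
    rw [e]
    calc (n:ℝ) * ((n:ℝ) ^ (-A) * (4 * (N:ℝ)) ^ p)
        ≤ (n:ℝ) * ((n:ℝ) ^ (-A) * (n:ℝ) ^ (8 * p)) := by gcongr
      _ = (n:ℝ) ^ ((1:ℝ) + (-A + 8 * p)) := by
          rw [rpow_add (by linarith), rpow_add (by linarith), rpow_one]
      _ = 1 := by rw [hA]; ring_nf; exact rpow_zero _
  have hone : 1 ≤ (Real.log 2 ^ (p - σ))⁻¹ * l ^ (p - σ) := by
    rw [inv_mul_eq_div, one_le_div (rpow_pos_of_pos (Real.log_pos (by norm_num)) _)]
    exact rpow_le_rpow (Real.log_nonneg (by norm_num)) hl2 hps.le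
  have hlp : 0 ≤ l ^ (p - σ) := rpow_nonneg hl0.le _
  suffices h : ∃ ν : Fin n → Fin n → ℝ, (∀ i c, 0 ≤ ν i c) ∧ (∀ i, ∑ c, ν i c ≤ 1) ∧
      (∀ i j, pdist p (x i) (x j) ≤ t → 3 / 4 ≤ ∑ c, min (ν i c) (ν j c)) ∧
      ∀ i, ∑ c, ν i c * (pdist p (x i) (x c) / t) ^ p ≤ (c₁ + c₂) * l ^ (p - σ) + 1 by
    obtain ⟨ν, h1, h2, h3, h4⟩ := h
    refine ⟨ν, h1, h2, h3, fun i => (h4 i).trans ?_⟩
    linarith
  by_cases h2 : 2 ≤ p
  · have hσe : σ = 1 := by rw [hσ, if_pos h2]
    set E := 3 * p ^ 2 * (t ^ (2:ℝ) * R ^ (p - 2)) with hE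
    have hE0 : 0 < E := by positivity
    refine exists_kernel_aux hp x ht hNpos hN16 (T := √E)
      (Q₀ := 8 * (20 * √E) ^ 2 * L) (Real.sqrt_pos.2 hE0) (by positivity) ?_ ?_
      (htail _ (Real.sqrt_pos.2 hE0))
    · intro u w hd hu hw
      rw [Real.sq_sqrt hE0.le]
      exact mdist_le_high h2 ht hR0 u w hd hu hw
    · intro u w _ _ hQ
      refine (dist_le_high h2 u w hQ).trans ?_
      rw [mul_pow, Real.sq_sqrt hE0.le]
      have hRt : R ^ (p - 2) ≤ (38:ℝ) ^ (p - 2) * l ^ (p - 2) * t ^ (p - 2) := by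
        rw [← mul_rpow (by norm_num) hl0.le, ← mul_rpow (by positivity) ht.le]
        exact rpow_le_rpow hR0.le (mul_le_mul_of_nonneg_right hN38 ht.le) (by linarith)
      have et : t ^ (2:ℝ) * t ^ (p - 2) = t ^ p := by rw [← rpow_add ht]; ring_nf
      have el : l * l ^ (p - 2) = l ^ (p - σ) := by
        rw [hσe]
        nth_rewrite 1 [← rpow_one l]
        rw [← rpow_add hl0]; ring_nf
      calc (2:ℝ) ^ p * (8 * ((20:ℝ) ^ 2 * E) * L)
          = (2:ℝ) ^ p * (8 * 400 * (3 * p ^ 2) * A) * (l * t ^ (2:ℝ)) * R ^ (p - 2) := by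
            rw [hE, hL]; ring
        _ ≤ (2:ℝ) ^ p * (8 * 400 * (3 * p ^ 2) * A) * (l * t ^ (2:ℝ)) *
              ((38:ℝ) ^ (p - 2) * l ^ (p - 2) * t ^ (p - 2)) :=
            mul_le_mul_of_nonneg_left hRt (by positivity)
        _ = c₁ * (l * l ^ (p - 2)) * (t ^ (2:ℝ) * t ^ (p - 2)) := by rw [hc₁]; ring
        _ ≤ _ := by
            rw [et, el]
            gcongr
            linarith
  · push Not at h2
    have hσe : σ = p * (p - 1) / 2 := by rw [hσ, if_neg (not_le.2 h2)]
    set E := 4 * t ^ p with hE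
    have hE0 : 0 < E := by positivity
    refine exists_kernel_aux hp x ht hNpos hN16 (T := √E)
      (Q₀ := 8 * (20 * √E) ^ 2 * L) (Real.sqrt_pos.2 hE0) (by positivity) ?_ ?_
      (htail _ (Real.sqrt_pos.2 hE0))
    · intro u w hd _ _
      rw [Real.sq_sqrt hE0.le]
      exact mdist_le_low hp0 h2.le u w hd
    · intro u w hu hw hQ
      refine (dist_le_low hp h2 hR0 (by positivity) u w hu hw hQ).trans ?_
      rw [mul_pow, Real.sq_sqrt hE0.le, ← rpow_mul hR0.le]
      have hβ : 0 ≤ p * (1 - p / 2) := mul_nonneg hp0.le (by linarith)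
      have hRt : R ^ (p * (1 - p / 2)) ≤
          (38:ℝ) ^ (p * (1 - p / 2)) * l ^ (p * (1 - p / 2)) * t ^ (p * (1 - p / 2)) := by
        rw [← mul_rpow (by norm_num) hl0.le, ← mul_rpow (by positivity) ht.le]
        exact rpow_le_rpow hR0.le (mul_le_mul_of_nonneg_right hN38 ht.le) hβ
      have eQ : (8 * ((20:ℝ) ^ 2 * E) * L) ^ (p / 2) =
          (8 * 400 * 4 * A) ^ (p / 2) * l ^ (p / 2) * t ^ (p * (p / 2)) := by
        rw [rpow_mul ht.le, ← mul_rpow (by positivity) hl0.le,
          ← mul_rpow (by positivity) (by positivity), hE, hL]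
        ring_nf
      have et : t ^ (p * (p / 2)) * t ^ (p * (1 - p / 2)) = t ^ p := by
        rw [← rpow_add ht]; ring_nf
      have el : l ^ (p / 2) * l ^ (p * (1 - p / 2)) = l ^ (p - σ) := by
        rw [← rpow_add hl0, hσe]; ring_nf
      rw [eQ]
      calc 12 * ((8 * 400 * 4 * A) ^ (p / 2) * l ^ (p / 2) * t ^ (p * (p / 2)) *
            R ^ (p * (1 - p / 2)))
          ≤ 12 * ((8 * 400 * 4 * A) ^ (p / 2) * l ^ (p / 2) * t ^ (p * (p / 2)) *
            ((38:ℝ) ^ (p * (1 - p / 2)) * l ^ (p * (1 - p / 2)) * t ^ (p * (1 - p / 2)))) := by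
            gcongr
        _ = c₂ * (l ^ (p / 2) * l ^ (p * (1 - p / 2))) *
              (t ^ (p * (p / 2)) * t ^ (p * (1 - p / 2))) := by rw [hc₂]; ring
        _ ≤ _ := by
            rw [et, el]
            gcongr
            linarith

end Vale.Agent.P249.Every
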