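import Vale.Agent.P249.Every.SchemeBase
import Vale.Agent.P249.Every.Kernel

/-!
The family of kernels: balls of growing radius while the growth is small, the Gaussian kernel
otherwise; the total moment is of lower order than `(log n) ^ p`.
-/

namespace Vale.Agent.P249.Every

open Finset

theorem pdist_finMetric {n K : ℕ} {p : ℝ} (hp : 1 ≤ p) (x : Fin n → Fin K → ℝ) :
    FinMetric (fun i j => pdist p (x i) (x j)) :=
  ⟨fun i => pdist_self (by linarith) _, fun i j => pdist_comm _ _,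
    fun i j k => pdist_triangle hp _ _ _, fun i j => pdist_nonneg _ _⟩

theorem geom_two_le (S : Finset ℕ) {q : ℝ} (hq : 0 ≤ q) :
    ∑ s ∈ S.filter (fun s => (2:ℝ) ^ s < q), (2:ℝ) ^ s ≤ 2 * q := by
  set U := S.filter (fun s => (2:ℝ) ^ s < q) with hU
  rcases U.eq_empty_or_nonempty with h | h
  · rw [h, Finset.sum_empty]; linarith
  have hsub : U ⊆ range (U.max' h + 1) := fun s hs =>
    Finset.mem_range.2 (Nat.lt_succ_of_le (U.le_max' s hs))
  refine (Finset.sum_le_sum_of_subset_of_nonneg hsub fun s _ _ => by positivity).trans ?_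
  rw [geom_sum_eq (by norm_num), pow_succ]
  have := (Finset.mem_filter.1 (U.max'_mem h)).2
  have : (0:ℝ) < (2:ℝ) ^ U.max' h := by positivity
  rw [div_le_iff₀ (by norm_num)]
  linarith

variable {n : ℕ} {d : Fin n → Fin n → ℝ}

/-- The growth window at a dyadic index. -/
noncomputable def win (d : Fin n → Fin n → ℝ) (i : Fin n) (m : ℤ) : ℝ :=
  lball d i ((2:ℝ) ^ (m + 1)) - lball d i ((2:ℝ) ^ (m - 2))

theorem win_nonneg (i : Fin n) (m : ℤ) : 0 ≤ win d i m :=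
  sub_nonneg.2 (lball_mono i (zpow_le_zpow_right₀ one_le_two (by omega)))

/-- Radii at scale `2 ^ j` and band `s`. -/
noncomputable def rad (j : ℤ) (s : ℕ) : ℕ → ℝ :=
  fun k => (2:ℝ) ^ s * (2:ℝ) ^ j + 2 * k * (2:ℝ) ^ j

theorem rad_nonneg (j : ℤ) (s k : ℕ) : 0 ≤ rad j s k := by unfold rad; positivity

/-- The band `s` stops the point `i` at scale `2 ^ j`. -/
def Stops (d : Fin n → Fin n → ℝ) (i : Fin n) (j : ℤ) (s : ℕ) : Prop :=
  lball d i (2 * ((2:ℝ) ^ s * (2:ℝ) ^ j)) - lball d i ((2:ℝ) ^ s * (2:ℝ) ^ j - (2:ℝ) ^ j)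
    ≤ (2:ℝ) ^ s / 8

theorem fails_win (h : FinMetric d) {i y : Fin n} {j : ℤ} {s : ℕ} (hs : 3 ≤ s)
    (hiy : d i y ≤ (2:ℝ) ^ j) (hf : ¬Stops d i j s) :
    (2:ℝ) ^ s / 8 < win d y ((s:ℤ) + 1 + j) := by
  rw [Stops, not_le] at hf
  refine hf.trans_le ?_
  have ht : (0:ℝ) < (2:ℝ) ^ j := by positivity
  have hyi : d y i ≤ (2:ℝ) ^ j := by rw [h.comm]; exact hiy
  have e1 : (2:ℝ) ^ ((s:ℤ) + 1 + j + 1) = 4 * ((2:ℝ) ^ s * (2:ℝ) ^ j) := by
    rw [zpow_add_one₀ (by norm_num), zpow_add₀ (by norm_num), zpow_add_one₀ (by norm_num),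
      zpow_natCast]
    ring
  have e2 : (2:ℝ) ^ ((s:ℤ) + 1 + j - 2) = (2:ℝ) ^ s * (2:ℝ) ^ j / 2 := by
    rw [show (s:ℤ) + 1 + j - 2 = ((s:ℤ) + j) - 1 by ring, zpow_sub_one₀ (by norm_num),
      zpow_add₀ (by norm_num), zpow_natCast]
    ring
  have h8 : (8:ℝ) ≤ (2:ℝ) ^ s := by
    calc (8:ℝ) = (2:ℝ) ^ 3 := by norm_num
      _ ≤ _ := pow_le_pow_right₀ one_le_two hs
  have hA : 4 * (2:ℝ) ^ j ≤ (2:ℝ) ^ s * (2:ℝ) ^ j := by gcongr; linarith
  simp only [win, e1, e2]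
  have u1 := (lball_shift h hiy (2 * ((2:ℝ) ^ s * (2:ℝ) ^ j))).trans
    (lball_mono y (show 2 * ((2:ℝ) ^ s * (2:ℝ) ^ j) + (2:ℝ) ^ j ≤ 4 * ((2:ℝ) ^ s * (2:ℝ) ^ j) by
      linarith))
  have u2 := (lball_mono y (show (2:ℝ) ^ s * (2:ℝ) ^ j / 2 ≤
      (2:ℝ) ^ s * (2:ℝ) ^ j - (2:ℝ) ^ j - (2:ℝ) ^ j by linarith)).trans
    (lball_shift h hyi ((2:ℝ) ^ s * (2:ℝ) ^ j - (2:ℝ) ^ j - (2:ℝ) ^ j))
  simp only [sub_add_cancel] at u2
  linarith

theorem stops_overlap (h : FinMetric d) {i y : Fin n} {j : ℤ} {s : ℕ} (hs : 3 ≤ s)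
    (hiy : d i y ≤ (2:ℝ) ^ j) (hst : Stops d i j s) :
    3 / 4 ≤ ∑ c, min (ballKer d (rad j s) (2 ^ (s - 1)) i c)
      (ballKer d (rad j s) (2 ^ (s - 1)) y c) := by
  have ht : (0:ℝ) < (2:ℝ) ^ j := by positivity
  have hge : (2:ℝ) ^ j ≤ (2:ℝ) ^ s * (2:ℝ) ^ j :=
    le_mul_of_one_le_left ht.le (one_le_pow₀ one_le_two)
  refine le_trans ?_ (ballKer_overlap h ht hge (N := 2 ^ (s - 1)) (by positivity) hiy)
  have e : (2:ℝ) ^ s = 2 * (2:ℝ) ^ (s - 1) := by
    rw [← pow_succ', Nat.sub_add_cancel (by omega)]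
  have e2 : (2:ℝ) ^ s * (2:ℝ) ^ j + 2 * ((2 ^ (s - 1) : ℕ) : ℝ) * (2:ℝ) ^ j =
      2 * ((2:ℝ) ^ s * (2:ℝ) ^ j) := by
    push_cast; rw [e]; ring
  rw [e2, Nat.cast_pow, Nat.cast_ofNat, le_sub_comm, div_le_iff₀ (by positivity)]
  rw [Stops] at hst
  nlinarith

/-- The moment of the first band. -/
theorem moment_first (h : FinMetric d) {p : ℝ} (hp : 1 ≤ p) (i : Fin n) (J : Finset ℤ) :
    ∑ j ∈ J, ∑ c, ballKer d (rad j 3) 4 i c * (d i c / (2:ℝ) ^ j) ^ p ≤
      (16:ℝ) ^ p * (2 * Real.log n) := by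
  have hp0 : 0 < p := by linarith
  simp only [sum_ballKer_mul]
  rw [← Finset.sum_div, Finset.sum_comm, div_le_iff₀ (by norm_num)]
  have hk : ∀ k ∈ range 4, ∑ j ∈ J, ((mball d i (rad j 3 k)).card : ℝ)⁻¹ *
      ∑ c ∈ mball d i (rad j 3 k), (d i c / (2:ℝ) ^ j) ^ p ≤ (16:ℝ) ^ p * (2 * Real.log n) := by
    intro k hk
    have hk3 : (k:ℝ) ≤ 3 := by
      exact_mod_cast Nat.lt_succ_iff.1 (Finset.mem_range.1 hk)
    have e : ∀ j : ℤ, rad j 3 k = (8 + 2 * (k:ℝ)) * (2:ℝ) ^ j := fun j => by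
      simp only [rad]; ring
    simp only [e]
    refine le_trans ?_ (mul_le_mul_of_nonneg_left
      (sum_mean_dist h i (show (0:ℝ) < 8 + 2 * k by positivity) J) (by positivity))
    rw [Finset.mul_sum]
    refine Finset.sum_le_sum fun j _ => ?_
    rw [mul_left_comm ((16:ℝ) ^ p)]
    refine mul_le_mul_of_nonneg_left ?_ (inv_nonneg.2 (Nat.cast_nonneg _))
    rw [Finset.mul_sum]
    refine Finset.sum_le_sum fun c hc => ?_
    have hr : 0 < (8 + 2 * (k:ℝ)) * (2:ℝ) ^ j := by positivity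
    have hq1 : d i c / ((8 + 2 * (k:ℝ)) * (2:ℝ) ^ j) ≤ 1 := (div_le_one hr).2 (mem_mball.1 hc)
    have hq0 : 0 ≤ d i c / ((8 + 2 * (k:ℝ)) * (2:ℝ) ^ j) := div_nonneg (h.nonneg i c) hr.le
    calc (d i c / (2:ℝ) ^ j) ^ p
        = ((8 + 2 * (k:ℝ)) * (d i c / ((8 + 2 * (k:ℝ)) * (2:ℝ) ^ j))) ^ p := by
          congr 1; field_simp
      _ ≤ (16 * (d i c / ((8 + 2 * (k:ℝ)) * (2:ℝ) ^ j))) ^ p := by
          refine Real.rpow_le_rpow (mul_nonneg (by positivity) hq0) ?_ hp0.le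
          exact mul_le_mul_of_nonneg_right (by linarith) hq0
      _ = (16:ℝ) ^ p * (d i c / ((8 + 2 * (k:ℝ)) * (2:ℝ) ^ j)) ^ p :=
          Real.mul_rpow (by norm_num) hq0
      _ ≤ _ := mul_le_mul_of_nonneg_left (Real.rpow_le_self_of_le_one hq0 hq1 hp) (by positivity)
  refine (Finset.sum_le_sum hk).trans (le_of_eq ?_)
  simp; ring

theorem rad_le {j : ℤ} {s k : ℕ} (hs : 1 ≤ s) (hk : k < 2 ^ (s - 1)) :
    rad j s k ≤ (2:ℝ) ^ (s + 1) * (2:ℝ) ^ j := by
  have h1 : (k:ℝ) ≤ (2:ℝ) ^ (s - 1) := by exact_mod_cast hk.le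
  have e : (2:ℝ) ^ s = 2 * (2:ℝ) ^ (s - 1) := by rw [← pow_succ', Nat.sub_add_cancel hs]
  simp only [rad, pow_succ]
  rw [← add_mul, e]
  gcongr
  linarith

/-- The moment of a later band. -/
theorem moment_band (h : FinMetric d) {p : ℝ} (hp : 1 ≤ p) (i : Fin n) (j : ℤ) {s : ℕ}
    (hs : 1 ≤ s) :
    ∑ c, ballKer d (rad j s) (2 ^ (s - 1)) i c * (d i c / (2:ℝ) ^ j) ^ p ≤
      ((2:ℝ) ^ (s + 1)) ^ p := by
  calc ∑ c, ballKer d (rad j s) (2 ^ (s - 1)) i c * (d i c / (2:ℝ) ^ j) ^ p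
      ≤ ∑ c, ballKer d (rad j s) (2 ^ (s - 1)) i c * ((2:ℝ) ^ (s + 1)) ^ p := by
        refine Finset.sum_le_sum fun c _ => ?_
        rcases (ballKer_nonneg (d := d) (rad j s) (2 ^ (s - 1)) i c).eq_or_lt with h0 | h0
        · rw [← h0, zero_mul, zero_mul]
        refine mul_le_mul_of_nonneg_left (Real.rpow_le_rpow
          (div_nonneg (h.nonneg i c) (by positivity)) ?_ (by linarith)) h0.le
        rw [div_le_iff₀ (by positivity)]
        obtain ⟨k, hk, hle⟩ : ∃ k, k < 2 ^ (s - 1) ∧ d i c ≤ rad j s k := by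
          by_contra hne
          simp only [not_exists, not_and, not_le] at hne
          refine h0.ne' ?_
          simp only [ballKer]
          rw [Finset.sum_eq_zero fun k hk => if_neg (not_le.2 (hne k (Finset.mem_range.1 hk))),
            zero_div]
        exact hle.trans (rad_le hs hk)
    _ = _ := by
        rw [← Finset.sum_mul, sum_ballKer h (fun k => rad_nonneg j s k) (by positivity) i, one_mul]

/-- The total of the active later bands. -/
theorem bands_total {p : ℝ} (hp : 1 ≤ p) (i : Fin n) (J : Finset ℤ) (S : ℕ) :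
    ∑ j ∈ J, ∑ s ∈ (range (S + 1)).filter (fun s : ℕ => (2:ℝ) ^ s / 16 < win d i ((s:ℤ) + j)),
      ((2:ℝ) ^ (s + 1)) ^ p ≤
      (2:ℝ) ^ p * ((2:ℝ) ^ S) ^ (p - 1) * (96 * Real.log n) := by
  set U := (J ×ˢ range (S + 1)).image (fun q => (q.2 : ℤ) + q.1) with hU
  calc ∑ j ∈ J, ∑ s ∈ (range (S + 1)).filter (fun s : ℕ => (2:ℝ) ^ s / 16 < win d i ((s:ℤ) + j)),
        ((2:ℝ) ^ (s + 1)) ^ p
      ≤ ∑ j ∈ J, ∑ s ∈ (range (S + 1)).filter
          (fun s : ℕ => (2:ℝ) ^ s / 16 < win d i ((s:ℤ) + j)),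
          (2:ℝ) ^ p * ((2:ℝ) ^ S) ^ (p - 1) * (2:ℝ) ^ s := by
        refine Finset.sum_le_sum fun j _ => Finset.sum_le_sum fun s hs => ?_
        have hsS : (2:ℝ) ^ s ≤ (2:ℝ) ^ S := pow_le_pow_right₀ one_le_two
          (Nat.lt_succ_iff.1 (Finset.mem_range.1 (Finset.mem_filter.1 hs).1))
        have e : ((2:ℝ) ^ (s + 1)) ^ p = (2:ℝ) ^ p * (((2:ℝ) ^ s) ^ (p - 1) * (2:ℝ) ^ s) := by
          rw [← Real.rpow_add_one (by positivity), sub_add_cancel,
            ← Real.mul_rpow (by norm_num) (by positivity), pow_succ']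
        rw [e, ← mul_assoc]
        gcongr
    _ = (2:ℝ) ^ p * ((2:ℝ) ^ S) ^ (p - 1) * ∑ s ∈ range (S + 1), ∑ j ∈ J,
          if (2:ℝ) ^ s / 16 < win d i ((s:ℤ) + j) then (2:ℝ) ^ s else 0 := by
        rw [Finset.sum_comm, Finset.mul_sum]
        refine Finset.sum_congr rfl fun j _ => ?_
        rw [← Finset.sum_filter, Finset.mul_sum]
    _ ≤ (2:ℝ) ^ p * ((2:ℝ) ^ S) ^ (p - 1) * ∑ s ∈ range (S + 1), ∑ m ∈ U,
          if (2:ℝ) ^ s / 16 < win d i m then (2:ℝ) ^ s else 0 := by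
        refine mul_le_mul_of_nonneg_left (Finset.sum_le_sum fun s hs => ?_) (by positivity)
        rw [← Finset.sum_image (f := fun m => if (2:ℝ) ^ s / 16 < win d i m then (2:ℝ) ^ s else 0)
          (g := fun j => (s:ℤ) + j) (fun a _ b _ hab => add_left_cancel hab)]
        refine Finset.sum_le_sum_of_subset_of_nonneg (fun m hm => ?_)
          fun m _ _ => ite_nonneg (by positivity) le_rfl
        obtain ⟨j, hj, rfl⟩ := Finset.mem_image.1 hm
        exact Finset.mem_image.2 ⟨(j, s), Finset.mem_product.2 ⟨hj, hs⟩, rfl⟩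
    _ ≤ (2:ℝ) ^ p * ((2:ℝ) ^ S) ^ (p - 1) * ∑ m ∈ U, 32 * win d i m := by
        refine mul_le_mul_of_nonneg_left ?_ (by positivity)
        rw [Finset.sum_comm]
        refine Finset.sum_le_sum fun m _ => ?_
        rw [← Finset.sum_filter]
        simp only [div_lt_iff₀ (show (0:ℝ) < 16 by norm_num)]
        exact (geom_two_le _ (mul_nonneg (win_nonneg i m) (by norm_num))).trans (le_of_eq (by ring))
    _ ≤ _ := by
        refine mul_le_mul_of_nonneg_left ?_ (by positivity)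
        rw [← Finset.mul_sum]
        have : ∑ m ∈ U, win d i m ≤ 3 * Real.log n := sum_growth i U
        linarith

/-- The scheme from a family of Gaussian kernels with moment at most `M`. -/
theorem scheme_of_kernel (h : FinMetric d) {p M : ℝ} (hp : 1 ≤ p) (S : ℕ) (hS : 3 ≤ S)
    (hK : ∀ t, 0 < t → ∃ ν : Fin n → Fin n → ℝ, (∀ i c, 0 ≤ ν i c) ∧ (∀ i, ∑ c, ν i c ≤ 1) ∧
      (∀ i j, d i j ≤ t → 3 / 4 ≤ ∑ c, min (ν i c) (ν j c)) ∧
      ∀ i, ∑ c, ν i c * (d i c / t) ^ p ≤ M)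
    (hM : 0 ≤ M) :
    HasScheme p d ((16:ℝ) ^ p * (2 * Real.log n) +
      (2:ℝ) ^ p * ((2:ℝ) ^ S) ^ (p - 1) * (96 * Real.log n) +
      24 * Real.log n / (2:ℝ) ^ S * M) := by
  classical
  set J : Finset ℤ := (univ : Finset (Fin n × Fin n)).image (fun q => Int.clog 2 (d q.1 q.2))
    with hJ
  have hKe : ∀ j : ℤ, ∃ ν : Fin n → Fin n → ℝ, (∀ i c, 0 ≤ ν i c) ∧ (∀ i, ∑ c, ν i c ≤ 1) ∧
      (∀ i i', d i i' ≤ (2:ℝ) ^ j → 3 / 4 ≤ ∑ c, min (ν i c) (ν i' c)) ∧
      ∀ i, ∑ c, ν i c * (d i c / (2:ℝ) ^ j) ^ p ≤ M := fun j => hK _ (by positivity)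
  choose νB hB0 hB1 hBo hBm using hKe
  let T := J × Option (Fin (S + 1))
  let ν : T → Fin n → Fin n → ℝ := fun q =>
    match q.2 with
    | some s => ballKer d (rad q.1 s) (2 ^ ((s:ℕ) - 1))
    | none => νB q.1
  let act : T → Fin n → Prop := fun q y =>
    match q.2 with
    | some s => (s:ℕ) = 3 ∨ (3 < (s:ℕ) ∧ (2:ℝ) ^ (s:ℕ) / 16 < win d y (((s:ℕ):ℤ) + q.1))
    | none => (2:ℝ) ^ S / 8 < win d y ((S:ℤ) + 1 + q.1)
  refine ⟨T, inferInstance, fun q => (2:ℝ) ^ (q.1 : ℤ), ν, act, fun q => by positivity, ?_, ?_, ?_, ?_⟩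
  · rintro ⟨j, _ | s⟩ i c
    · exact hB0 _ i c
    · exact ballKer_nonneg _ _ i c
  · rintro ⟨j, _ | s⟩ i
    · exact hB1 _ i
    · exact (sum_ballKer h (fun k => rad_nonneg _ _ k) (by positivity) i).le
  · intro i y hd
    have hjJ : Int.clog 2 (d i y) ∈ J :=
      Finset.mem_image.2 ⟨(i, y), Finset.mem_univ _, rfl⟩
    set j := Int.clog 2 (d i y) with hj
    have hdt : d i y ≤ (2:ℝ) ^ j := by
      exact_mod_cast Int.self_le_zpow_clog (R := ℝ) Nat.one_lt_two (d i y)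
    have htd : (2:ℝ) ^ j ≤ 2 * d i y := by
      have h1 : (2:ℝ) ^ (j - 1) < d i y := by
        exact_mod_cast Int.zpow_pred_clog_lt_self (R := ℝ) Nat.one_lt_two hd
      rw [zpow_sub_one₀ (by norm_num)] at h1
      linarith
    have hii : d i i ≤ (2:ℝ) ^ j := by rw [h.self]; positivity
    by_cases hex : ∃ s, 3 ≤ s ∧ s ≤ S ∧ Stops d i j s
    · obtain ⟨hs3, hsS, hst⟩ := Nat.find_spec hex
      set s := Nat.find hex with hs
      have hact : ∀ u, d i u ≤ (2:ℝ) ^ j → act (⟨j, hjJ⟩, some ⟨s, by omega⟩) u := by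
        intro u hu
        show s = 3 ∨ (3 < s ∧ _)
        by_cases h3 : s = 3
        · exact Or.inl h3
        refine Or.inr ⟨by omega, ?_⟩
        have hmin := Nat.find_min hex (show s - 1 < s by omega)
        have hw := fails_win h (show 3 ≤ s - 1 by omega) hu fun hc =>
          hmin ⟨by omega, by omega, hc⟩
        have e : ((s - 1 : ℕ) : ℤ) + 1 + j = (s:ℤ) + j := by omega
        rw [e] at hw
        have e2 : (2:ℝ) ^ s / 16 = (2:ℝ) ^ (s - 1) / 8 := by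
          rw [show (2:ℝ) ^ s = (2:ℝ) ^ (s - 1) * 2 by rw [← pow_succ, Nat.sub_add_cancel (by omega)]]
          ring
        rw [e2]; exact hw
      exact ⟨(⟨j, hjJ⟩, some ⟨s, by omega⟩), hact i hii, hact y hdt, htd,
        stops_overlap h hs3 hdt hst⟩
    · simp only [not_exists, not_and] at hex
      refine ⟨(⟨j, hjJ⟩, none), fails_win h hS hii (hex S hS le_rfl),
        fails_win h hS hdt (hex S hS le_rfl), htd, hBo _ i y hdt⟩
  · intro i A hA
    have hν0 : ∀ q : T, ∀ c, 0 ≤ ν q i c := by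
      rintro ⟨j, _ | s⟩ c
      · exact hB0 _ i c
      · exact ballKer_nonneg _ _ i c
    set F : T → ℝ := fun q =>
      if act q i then ∑ c, ν q i c * (d i c / (2:ℝ) ^ (q.1 : ℤ)) ^ p else 0 with hF
    have hnn : ∀ q, 0 ≤ F q := fun q => ite_nonneg (Finset.sum_nonneg fun c _ =>
      mul_nonneg (hν0 q c) (Real.rpow_nonneg (div_nonneg (h.nonneg i c) (by positivity)) _)) le_rfl
    calc ∑ q ∈ A, ∑ c, ν q i c * (d i c / (2:ℝ) ^ (q.1 : ℤ)) ^ p
        = ∑ q ∈ A, F q := Finset.sum_congr rfl fun q hq => (if_pos (hA q hq)).symm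
      _ ≤ ∑ q, F q := Finset.sum_le_univ_sum_of_nonneg hnn
      _ = ∑ j : J, (F (j, none) + ∑ s : Fin (S + 1), F (j, some s)) := by
          rw [Fintype.sum_prod_type]
          exact Finset.sum_congr rfl fun j _ => Fintype.sum_option _
      _ ≤ ∑ j : J, ((if (2:ℝ) ^ S / 8 < win d i ((S:ℤ) + 1 + j) then M else 0) +
            ((∑ c, ballKer d (rad j 3) 4 i c * (d i c / (2:ℝ) ^ (j:ℤ)) ^ p) +
              ∑ s ∈ (range (S + 1)).filter
                (fun s : ℕ => (2:ℝ) ^ s / 16 < win d i ((s:ℤ) + j)), ((2:ℝ) ^ (s + 1)) ^ p)) := by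
          refine Finset.sum_le_sum fun j _ => add_le_add ?_ ?_
          · by_cases hb : (2:ℝ) ^ S / 8 < win d i ((S:ℤ) + 1 + j)
            · rw [if_pos hb]; simp only [hF]; rw [if_pos (show act (j, none) i from hb)]
              exact hBm _ i
            · rw [if_neg hb]; simp only [hF]; rw [if_neg (show ¬act (j, none) i from hb)]
          · have hpt : ∀ s : Fin (S + 1), F (j, some s) ≤
                (if (s:ℕ) = 3 then ∑ c, ballKer d (rad j 3) 4 i c * (d i c / (2:ℝ) ^ (j:ℤ)) ^ p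
                  else 0) +
                (if (2:ℝ) ^ (s:ℕ) / 16 < win d i (((s:ℕ):ℤ) + j) then ((2:ℝ) ^ ((s:ℕ) + 1)) ^ p
                  else 0) := by
              intro s
              have hpos : 0 ≤ (if (2:ℝ) ^ (s:ℕ) / 16 < win d i (((s:ℕ):ℤ) + j) then
                  ((2:ℝ) ^ ((s:ℕ) + 1)) ^ p else 0) := ite_nonneg (by positivity) le_rfl
              by_cases h3 : (s:ℕ) = 3
              · rw [if_pos h3]
                simp only [hF]
                rw [if_pos (show act (j, some s) i from Or.inl h3)]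
                refine le_add_of_le_of_nonneg (le_of_eq ?_) hpos
                show ∑ c, ballKer d (rad j s) (2 ^ ((s:ℕ) - 1)) i c * _ = _
                rw [h3]; norm_num
              · rw [if_neg h3, zero_add]
                simp only [hF]
                split_ifs with ha hb hb
                · exact moment_band h hp i j (by
                    rcases ha with ha | ⟨ha, _⟩
                    · exact absurd ha h3
                    · omega)
                · rcases ha with ha | ⟨_, ha⟩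
                  · exact absurd ha h3
                  · exact absurd ha hb
                · positivity
                · exact le_rfl
            refine (Finset.sum_le_sum fun s _ => hpt s).trans (le_of_eq ?_)
            rw [Finset.sum_add_distrib]
            congr 1
            · rw [Finset.sum_eq_single (⟨3, by omega⟩ : Fin (S + 1))
                (fun s _ hs => if_neg fun e => hs (Fin.ext e))
                (fun hc => absurd (Finset.mem_univ _) hc), if_pos rfl]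
            · rw [Fin.sum_univ_eq_sum_range (fun s : ℕ =>
                if (2:ℝ) ^ s / 16 < win d i ((s:ℤ) + j) then ((2:ℝ) ^ (s + 1)) ^ p else 0),
                Finset.sum_filter]
      _ ≤ _ := by
          rw [Finset.sum_add_distrib, Finset.sum_add_distrib,
            Finset.sum_coe_sort J (fun j => if (2:ℝ) ^ S / 8 < win d i ((S:ℤ) + 1 + j) then M else 0),
            Finset.sum_coe_sort J
              (fun j => ∑ c, ballKer d (rad j 3) 4 i c * (d i c / (2:ℝ) ^ j) ^ p),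
            Finset.sum_coe_sort J (fun j => ∑ s ∈ (range (S + 1)).filter
              (fun s : ℕ => (2:ℝ) ^ s / 16 < win d i ((s:ℤ) + j)), ((2:ℝ) ^ (s + 1)) ^ p)]
          have hb : ∑ j ∈ J, (if (2:ℝ) ^ S / 8 < win d i ((S:ℤ) + 1 + j) then M else 0) ≤
              24 * Real.log n / (2:ℝ) ^ S * M := by
            have hone : ∀ j ∈ J, (if (2:ℝ) ^ S / 8 < win d i ((S:ℤ) + 1 + j) then M else 0) ≤
                8 / (2:ℝ) ^ S * win d i ((S:ℤ) + 1 + j) * M := by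
              intro j _
              split_ifs with hlt
              · refine le_mul_of_one_le_left hM ?_
                rw [div_mul_eq_mul_div, one_le_div (by positivity)]
                linarith
              · exact mul_nonneg (mul_nonneg (by positivity) (win_nonneg i _)) hM
            refine (Finset.sum_le_sum hone).trans ?_
            rw [← Finset.sum_mul, ← Finset.mul_sum]
            refine mul_le_mul_of_nonneg_right ?_ hM
            have hg := sum_growth (d := d) i (J.image fun j => (S:ℤ) + 1 + j)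
            rw [Finset.sum_image fun a _ b _ hab => add_left_cancel hab] at hg
            calc 8 / (2:ℝ) ^ S * ∑ j ∈ J, win d i ((S:ℤ) + 1 + j)
                ≤ 8 / (2:ℝ) ^ S * (3 * Real.log n) := mul_le_mul_of_nonneg_left hg (by positivity)
              _ = _ := by ring
          linarith [moment_first h hp i J, bands_total (d := d) hp i J S]

theorem hasScheme_mono {p Φ Φ' : ℝ} (h : HasScheme p d Φ) (hle : Φ ≤ Φ') : HasScheme p d Φ' := by
  obtain ⟨T, i, t, ν, act, h1, h2, h3, h4, h5⟩ := h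
  exact ⟨T, i, t, ν, act, h1, h2, h3, h4, fun a A hA => (h5 a A hA).trans hle⟩

theorem exists_scheme {p : ℝ} (hp : 1 < p) : ∃ C σ : ℝ, 0 < C ∧ 0 < σ ∧
    ∀ (n K : ℕ), 2 ≤ n → ∀ x : Fin n → Fin K → ℝ,
      HasScheme p (fun i j => pdist p (x i) (x j)) (C * Real.log n ^ (p - σ)) := by
  obtain ⟨CK, σ, hCK, hσ, hσ1, hker⟩ := exists_kernel hp
  have hp1 : 1 ≤ p := hp.le
  set τ := σ / 2 with hτ
  set σ' := min τ (τ * (p - 1)) with hσ'
  have hσ'0 : 0 < σ' := lt_min (by linarith) (mul_pos (by linarith) (by linarith))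
  set c₀ := Real.log 2 with hc₀
  have hc₀0 : 0 < c₀ := Real.log_pos one_lt_two
  set C₁ := 16 * (1 + 2 / c₀) with hC₁
  have hC₁0 : 0 < C₁ := by rw [hC₁]; positivity
  -- lower powers of the logarithm are absorbed
  obtain ⟨Cl, hCl, hpow⟩ : ∃ Cl : ℝ, 0 < Cl ∧ ∀ a, σ' ≤ a → a ≤ σ' + p + 1 →
      ∀ l : ℝ, c₀ ≤ l → l ^ (p - a) ≤ Cl * l ^ (p - σ') := by
    refine ⟨(1 / c₀) ^ (p + 1) + 1, by positivity, fun a ha ha' l hl => ?_⟩
    have hl0 : 0 < l := hc₀0.trans_le hl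
    rw [show p - a = -(a - σ') + (p - σ') by ring, Real.rpow_add hl0]
    refine mul_le_mul_of_nonneg_right ?_ (by positivity)
    rw [Real.rpow_neg hl0.le, ← Real.inv_rpow hl0.le]
    have h1 : (l⁻¹) ^ (a - σ') ≤ (1 / c₀) ^ (a - σ') := by
      refine Real.rpow_le_rpow (by positivity) ?_ (by linarith)
      rw [one_div]; exact inv_anti₀ hc₀0 hl
    refine h1.trans ?_
    rcases le_total 1 (1 / c₀) with hb | hb
    · have := Real.rpow_le_rpow_of_exponent_le hb (show a - σ' ≤ p + 1 by linarith)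
      linarith
    · have := Real.rpow_le_one (by positivity) hb (show 0 ≤ a - σ' by linarith)
      have : 0 ≤ (1 / c₀) ^ (p + 1) := by positivity
      linarith
  set C := (16:ℝ) ^ p * 2 * Cl + (2:ℝ) ^ p * C₁ ^ (p - 1) * 96 * Cl + 24 * CK * Cl with hC
  refine ⟨C, σ', by positivity, hσ'0, fun n K hn x => ?_⟩
  set l := Real.log n with hl
  have hl0 : c₀ ≤ l := Real.log_le_log (by norm_num) (by exact_mod_cast hn)
  have hlpos : 0 < l := hc₀0.trans_le hl0
  set H := l ^ (1 - τ) with hH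
  have hHc : c₀ ≤ H := by
    have h1 : c₀ ≤ c₀ ^ (1 - τ) := by
      refine Real.self_le_rpow_of_le_one hc₀0.le ?_ (by linarith)
      have := Real.log_le_sub_one_of_pos (show (0:ℝ) < 2 by norm_num)
      linarith
    exact h1.trans (Real.rpow_le_rpow hc₀0.le hl0 (by linarith))
  have hH0 : 0 < H := hc₀0.trans_le hHc
  set S := Nat.log 2 ⌈H⌉₊ + 4 with hS
  have hPlo : H ≤ (2:ℝ) ^ S := by
    have h1 : ((⌈H⌉₊ : ℕ) : ℝ) ≤ (2:ℝ) ^ (Nat.log 2 ⌈H⌉₊ + 1) := by
      exact_mod_cast (Nat.lt_pow_succ_log_self one_lt_two ⌈H⌉₊).le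
    exact (Nat.le_ceil H).trans (h1.trans (pow_le_pow_right₀ one_le_two (by omega)))
  have hPhi : (2:ℝ) ^ S ≤ C₁ * H := by
    have hne : ⌈H⌉₊ ≠ 0 := by rw [ne_eq, Nat.ceil_eq_zero, not_le]; exact hH0
    have h1 : (2:ℝ) ^ Nat.log 2 ⌈H⌉₊ ≤ (⌈H⌉₊ : ℕ) := by exact_mod_cast Nat.pow_log_le_self 2 hne
    have h2 := Nat.ceil_lt_add_one hH0.le
    have h3 : 2 ≤ 2 / c₀ * H := by rw [div_mul_eq_mul_div, le_div_iff₀ hc₀0]; linarith
    rw [hS, pow_add, hC₁]
    linarith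
  have hbase := scheme_of_kernel (pdist_finMetric hp1 x) hp1 S (by omega)
    (M := CK * l ^ (p - σ)) (fun t ht => hker n K hn x t ht) (by positivity)
  refine hasScheme_mono hbase ?_
  have t1 : l ≤ Cl * l ^ (p - σ') := by
    by_cases hcase : σ' ≤ p - 1
    · have := hpow (p - 1) hcase (by linarith) l hl0
      rwa [show p - (p - 1) = 1 by ring, Real.rpow_one] at this
    · exfalso
      have : σ' ≤ τ * (p - 1) := min_le_right _ _
      have : τ * (p - 1) ≤ 1 * (p - 1) := mul_le_mul_of_nonneg_right (by linarith) (by linarith)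
      linarith
  have t2 : l * ((2:ℝ) ^ S) ^ (p - 1) ≤ C₁ ^ (p - 1) * (Cl * l ^ (p - σ')) := by
    calc l * ((2:ℝ) ^ S) ^ (p - 1) ≤ l * (C₁ * H) ^ (p - 1) := by gcongr
      _ = C₁ ^ (p - 1) * (l ^ (1:ℝ) * l ^ ((1 - τ) * (p - 1))) := by
          rw [Real.mul_rpow hC₁0.le hH0.le, hH, ← Real.rpow_mul hlpos.le, Real.rpow_one]; ring
      _ = C₁ ^ (p - 1) * l ^ (p - τ * (p - 1)) := by
          rw [← Real.rpow_add hlpos]; congr 2; ring
      _ ≤ _ := mul_le_mul_of_nonneg_left (hpow _ (min_le_right _ _)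
          (by nlinarith) l hl0) (by positivity)
  have t3 : l / (2:ℝ) ^ S * l ^ (p - σ) ≤ Cl * l ^ (p - σ') := by
    calc l / (2:ℝ) ^ S * l ^ (p - σ) ≤ l / H * l ^ (p - σ) := by gcongr
      _ = l ^ (p - τ) := by
          rw [hH, show p - τ = (1:ℝ) + -(1 - τ) + (p - σ) by rw [hτ]; ring, Real.rpow_add hlpos,
            Real.rpow_add hlpos, Real.rpow_one, Real.rpow_neg hlpos.le, div_eq_mul_inv]
      _ ≤ _ := hpow τ (min_le_left _ _) (by linarith) l hl0
  have a1 := mul_le_mul_of_nonneg_left t1 (by positivity : (0:ℝ) ≤ (16:ℝ) ^ p * 2)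
  have a2 := mul_le_mul_of_nonneg_left t2 (by positivity : (0:ℝ) ≤ (2:ℝ) ^ p * 96)
  have a3 := mul_le_mul_of_nonneg_left t3 (by positivity : (0:ℝ) ≤ 24 * CK)
  have e3 : 24 * l / (2:ℝ) ^ S * (CK * l ^ (p - σ)) = 24 * CK * (l / (2:ℝ) ^ S * l ^ (p - σ)) := by
    ring
  rw [← hl, hC, e3]
  linarith

end Vale.Agent.P249.Every
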