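import Vale.Agent.P249.Every.Defs
import Vale.Agent.P249.Windows

/-!
Ball kernels of a finite metric: overlap, and the moment bound through the growth of balls.
-/

namespace Vale.Agent.P249.Every

open Finset

variable {n : ℕ}

/-- A finite pseudometric given by a function. -/
structure FinMetric (d : Fin n → Fin n → ℝ) : Prop where
  self : ∀ i, d i i = 0
  comm : ∀ i j, d i j = d j i
  tri : ∀ i j k, d i k ≤ d i j + d j k
  nonneg : ∀ i j, 0 ≤ d i j

/-- Closed ball. -/
noncomputable def mball (d : Fin n → Fin n → ℝ) (i : Fin n) (r : ℝ) : Finset (Fin n) := by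
  classical exact univ.filter fun c => d i c ≤ r

/-- Logarithm of the size of a ball. -/
noncomputable def lball (d : Fin n → Fin n → ℝ) (i : Fin n) (r : ℝ) : ℝ :=
  Real.log ((mball d i r).card)

/-- The average over `N` radii of the uniform law on the ball. -/
noncomputable def ballKer (d : Fin n → Fin n → ℝ) (r : ℕ → ℝ) (N : ℕ) (i c : Fin n) : ℝ :=
  (∑ k ∈ range N, if d i c ≤ r k then ((mball d i (r k)).card : ℝ)⁻¹ else 0) / N

variable {d : Fin n → Fin n → ℝ}

theorem mem_mball {i c : Fin n} {r : ℝ} : c ∈ mball d i r ↔ d i c ≤ r := by simp [mball]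

theorem mball_mono (i : Fin n) {r r' : ℝ} (h : r ≤ r') : mball d i r ⊆ mball d i r' :=
  fun _ hc => mem_mball.2 ((mem_mball.1 hc).trans h)

theorem lball_nonneg (i : Fin n) (r : ℝ) : 0 ≤ lball d i r := Real.log_natCast_nonneg _

theorem lball_mono (i : Fin n) : Monotone (lball d i) := by
  intro r r' h
  rcases Nat.eq_zero_or_pos (mball d i r).card with h0 | h0
  · simp only [lball, h0, Nat.cast_zero, Real.log_zero]; exact lball_nonneg i r'
  · exact Real.log_le_log (by exact_mod_cast h0)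
      (by exact_mod_cast Finset.card_le_card (mball_mono i h))

theorem lball_le (i : Fin n) (r : ℝ) : lball d i r ≤ Real.log n := by
  rcases Nat.eq_zero_or_pos (mball d i r).card with h0 | h0
  · simp only [lball, h0, Nat.cast_zero, Real.log_zero]; exact Real.log_natCast_nonneg _
  · exact Real.log_le_log (by exact_mod_cast h0)
      (by exact_mod_cast (Finset.card_le_univ _).trans_eq (Fintype.card_fin n))

theorem card_mball_pos (h : FinMetric d) (i : Fin n) {r : ℝ} (hr : 0 ≤ r) :
    (0:ℝ) < (mball d i r).card := by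
  exact_mod_cast Finset.card_pos.2 ⟨i, mem_mball.2 (by rw [h.self]; exact hr)⟩

theorem lball_shift (h : FinMetric d) {i j : Fin n} {t : ℝ} (hij : d i j ≤ t) (r : ℝ) :
    lball d i r ≤ lball d j (r + t) := by
  rcases Nat.eq_zero_or_pos (mball d i r).card with h0 | h0
  · simp only [lball, h0, Nat.cast_zero, Real.log_zero]; exact Real.log_natCast_nonneg _
  · refine Real.log_le_log (by exact_mod_cast h0) (Nat.cast_le.2 (Finset.card_le_card fun c hc =>
      mem_mball.2 ?_))
    have := h.tri j i c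
    rw [h.comm j i] at this
    linarith [mem_mball.1 hc]

theorem ballKer_nonneg (r : ℕ → ℝ) (N : ℕ) (i c : Fin n) : 0 ≤ ballKer d r N i c :=
  div_nonneg (Finset.sum_nonneg fun k _ => ite_nonneg (inv_nonneg.2 (Nat.cast_nonneg _)) le_rfl)
    (Nat.cast_nonneg _)

theorem sum_ballKer_mul (r : ℕ → ℝ) (N : ℕ) (i : Fin n) (g : Fin n → ℝ) :
    ∑ c, ballKer d r N i c * g c =
      (∑ k ∈ range N, ((mball d i (r k)).card : ℝ)⁻¹ * ∑ c ∈ mball d i (r k), g c) / N := by
  simp only [ballKer, div_mul_eq_mul_div, Finset.sum_mul, ite_mul, zero_mul]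
  rw [← Finset.sum_div, Finset.sum_comm]
  congr 1
  refine Finset.sum_congr rfl fun k _ => ?_
  rw [Finset.mul_sum, mball, Finset.sum_filter]

theorem sum_ballKer (h : FinMetric d) {r : ℕ → ℝ} (hr : ∀ k, 0 ≤ r k) {N : ℕ} (hN : 0 < N)
    (i : Fin n) : ∑ c, ballKer d r N i c = 1 := by
  have := sum_ballKer_mul (d := d) r N i fun _ => 1
  simp only [mul_one, Finset.sum_const, nsmul_eq_mul] at this
  rw [this, Finset.sum_congr rfl fun k _ => inv_mul_cancel₀ (card_mball_pos h i (hr k)).ne']
  simp [hN.ne']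

/-- Overlap of the ball kernels of two points at distance at most `t`. -/
theorem ballKer_overlap (h : FinMetric d) {t R : ℝ} (ht : 0 < t) (hR : t ≤ R) {N : ℕ} (hN : 0 < N)
    {i j : Fin n} (hij : d i j ≤ t) :
    1 - (lball d i (R + 2 * N * t) - lball d i (R - t)) / N ≤
      ∑ c, min (ballKer d (fun k => R + 2 * k * t) N i c)
        (ballKer d (fun k => R + 2 * k * t) N j c) := by
  set r : ℕ → ℝ := fun k => R + 2 * k * t with hr
  set g : ℕ → ℝ := fun k => lball d i (r k - t) with hg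
  have hr0 : ∀ k, t ≤ r k := fun k => by
    have : 0 ≤ 2 * (k:ℝ) * t := by positivity
    simp only [hr]; linarith
  have hk : ∀ k, 1 - (g (k + 1) - g k) ≤
      ∑ c, min (if d i c ≤ r k then ((mball d i (r k)).card:ℝ)⁻¹ else 0)
        (if d j c ≤ r k then ((mball d j (r k)).card:ℝ)⁻¹ else 0) := by
    intro k
    have hlo := card_mball_pos h i (show 0 ≤ r k - t by linarith [hr0 k])
    have hhi := card_mball_pos h i (show 0 ≤ r k + t by linarith [hr0 k])
    have e : r (k + 1) - t = r k + t := by simp only [hr]; push_cast; ring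
    have h1 : 1 - (g (k + 1) - g k) ≤
        ((mball d i (r k - t)).card:ℝ) * ((mball d i (r k + t)).card:ℝ)⁻¹ := by
      have h2 := Real.add_one_le_exp
        (Real.log (((mball d i (r k - t)).card:ℝ) / (mball d i (r k + t)).card))
      rw [Real.exp_log (div_pos hlo hhi), Real.log_div hlo.ne' hhi.ne'] at h2
      rw [← div_eq_mul_inv]
      simp only [hg, e, lball]
      linarith
    refine h1.trans ?_
    rw [← nsmul_eq_mul, ← Finset.sum_const]
    refine (Finset.sum_le_sum fun c hc => ?_).trans (Finset.sum_le_univ_sum_of_nonneg fun c =>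
      le_min (ite_nonneg (inv_nonneg.2 (Nat.cast_nonneg _)) le_rfl)
        (ite_nonneg (inv_nonneg.2 (Nat.cast_nonneg _)) le_rfl))
    have hic : d i c ≤ r k := by linarith [mem_mball.1 hc]
    have hjc : d j c ≤ r k := by
      have := h.tri j i c; rw [h.comm j i] at this; linarith [mem_mball.1 hc]
    rw [if_pos hic, if_pos hjc]
    refine le_min (inv_anti₀ (card_mball_pos h i (by linarith [hr0 k])) ?_)
      (inv_anti₀ (card_mball_pos h j (by linarith [hr0 k])) ?_) <;>
      refine Nat.cast_le.2 (Finset.card_le_card fun b hb => mem_mball.2 ?_)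
    · linarith [mem_mball.1 hb]
    · linarith [mem_mball.1 hb, h.tri i j b]
  have hN0 : (0:ℝ) < N := by exact_mod_cast hN
  have hsum : (N:ℝ) - (lball d i (R + 2 * N * t) - lball d i (R - t)) ≤
      ∑ k ∈ range N, (1 - (g (k + 1) - g k)) := by
    rw [Finset.sum_sub_distrib, Finset.sum_range_sub g]
    have h1 : g N ≤ lball d i (R + 2 * N * t) := lball_mono i (by simp only [hr]; linarith)
    have h2 : g 0 = lball d i (R - t) := by simp [hg, hr]
    simp
    linarith
  calc 1 - (lball d i (R + 2 * N * t) - lball d i (R - t)) / N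
      = ((N:ℝ) - (lball d i (R + 2 * N * t) - lball d i (R - t))) / N := by field_simp
    _ ≤ (∑ k ∈ range N, ∑ c, min (if d i c ≤ r k then ((mball d i (r k)).card:ℝ)⁻¹ else 0)
          (if d j c ≤ r k then ((mball d j (r k)).card:ℝ)⁻¹ else 0)) / N :=
        div_le_div_of_nonneg_right (hsum.trans (Finset.sum_le_sum fun k _ => hk k)) hN0.le
    _ ≤ _ := by
        rw [Finset.sum_comm, Finset.sum_div]
        refine Finset.sum_le_sum fun c _ => ?_
        simp only [ballKer]
        rw [min_div_div_right hN0.le]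
        refine div_le_div_of_nonneg_right (le_min ?_ ?_) hN0.le <;>
          refine Finset.sum_le_sum fun k _ => ?_
        · exact min_le_left _ _
        · exact min_le_right _ _

theorem two_zpow_succ (j : ℤ) : (2:ℝ) ^ (j + 1) = 2 * (2:ℝ) ^ j := by
  rw [zpow_add_one₀ (by norm_num)]; ring

theorem two_zpow_double {j j' : ℤ} (h : j < j') : 2 * (2:ℝ) ^ j ≤ (2:ℝ) ^ j' := by
  rw [← two_zpow_succ]; exact zpow_le_zpow_right₀ one_le_two (by omega)

/-- The mean scaled distance inside balls of geometrically growing radii has bounded total. -/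
theorem sum_mean_dist (h : FinMetric d) (i : Fin n) {ρ : ℝ} (hρ : 0 < ρ) (S : Finset ℤ) :
    ∑ j ∈ S, ((mball d i (ρ * (2:ℝ) ^ j)).card : ℝ)⁻¹ *
      (∑ c ∈ mball d i (ρ * (2:ℝ) ^ j), d i c / (ρ * (2:ℝ) ^ j)) ≤ 2 * Real.log n := by
  set v : ℤ → ℝ := fun j => ((mball d i (ρ * (2:ℝ) ^ j)).card : ℝ)⁻¹ *
      (∑ c ∈ mball d i (ρ * (2:ℝ) ^ j), d i c / (ρ * (2:ℝ) ^ j)) with hv
  set φ : ℤ → ℝ := fun j => lball d i (ρ * (2:ℝ) ^ j) with hφ
  have hr : ∀ j : ℤ, 0 < ρ * (2:ℝ) ^ j := fun j => by positivity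
  have hN : ∀ j : ℤ, (0:ℝ) < (mball d i (ρ * (2:ℝ) ^ j)).card := fun j => card_mball_pos h i (hr j).le
  have hv0 : ∀ j, 0 ≤ v j := fun j => mul_nonneg (inv_nonneg.2 (hN j).le)
    (Finset.sum_nonneg fun c _ => div_nonneg (h.nonneg i c) (hr j).le)
  have hstep : ∀ j j', j < j' → v j' ≤ v j / 2 + (φ j' - φ j) := by
    intro j j' hjj
    set A := mball d i (ρ * (2:ℝ) ^ j) with hA
    set B := mball d i (ρ * (2:ℝ) ^ j') with hB
    have hsub : A ⊆ B := mball_mono i
      (mul_le_mul_of_nonneg_left (zpow_le_zpow_right₀ one_le_two hjj.le) hρ.le)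
    have h2 : 2 * (ρ * (2:ℝ) ^ j) ≤ ρ * (2:ℝ) ^ j' := by
      have := mul_le_mul_of_nonneg_left (two_zpow_double hjj) hρ.le
      linarith
    have hAB : (A.card:ℝ) ≤ B.card := by exact_mod_cast Finset.card_le_card hsub
    have e1 : ∑ c ∈ B, d i c / (ρ * (2:ℝ) ^ j') =
        ∑ c ∈ A, d i c / (ρ * (2:ℝ) ^ j') + ∑ c ∈ B \ A, d i c / (ρ * (2:ℝ) ^ j') := by
      rw [← Finset.sum_sdiff hsub, add_comm]
    have e2 : ∑ c ∈ B \ A, d i c / (ρ * (2:ℝ) ^ j') ≤ (B.card:ℝ) - A.card := by
      refine (Finset.sum_le_card_nsmul _ _ 1 fun c hc => ?_).trans ?_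
      · exact (div_le_one (hr j')).2 (mem_mball.1 (Finset.mem_sdiff.1 hc).1)
      · rw [nsmul_eq_mul, mul_one, Finset.cast_card_sdiff hsub]
    have e3 : ∑ c ∈ A, d i c / (ρ * (2:ℝ) ^ j') ≤ (∑ c ∈ A, d i c / (ρ * (2:ℝ) ^ j)) / 2 := by
      rw [Finset.sum_div]
      refine Finset.sum_le_sum fun c _ => ?_
      rw [div_div, mul_comm _ (2:ℝ)]
      exact div_le_div_of_nonneg_left (h.nonneg i c) (by linarith [hr j]) h2
    have hinv : (B.card:ℝ)⁻¹ ≤ (A.card:ℝ)⁻¹ := inv_anti₀ (hN j) hAB
    have hgrow : (B.card:ℝ)⁻¹ * ((B.card:ℝ) - A.card) ≤ φ j' - φ j := by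
      have := Real.add_one_le_exp (Real.log ((A.card:ℝ) / B.card))
      rw [Real.exp_log (div_pos (hN j) (hN j')), Real.log_div (hN j).ne' (hN j').ne'] at this
      rw [mul_sub, inv_mul_cancel₀ (hN j').ne', inv_mul_eq_div]
      simp only [hφ, lball, ← hA, ← hB]
      linarith
    have hA0 : 0 ≤ ∑ c ∈ A, d i c / (ρ * (2:ℝ) ^ j) :=
      Finset.sum_nonneg fun c _ => div_nonneg (h.nonneg i c) (hr j).le
    calc v j' = (B.card:ℝ)⁻¹ * ∑ c ∈ B, d i c / (ρ * (2:ℝ) ^ j') := rfl
      _ ≤ (B.card:ℝ)⁻¹ * ((∑ c ∈ A, d i c / (ρ * (2:ℝ) ^ j)) / 2 + ((B.card:ℝ) - A.card)) := by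
          refine mul_le_mul_of_nonneg_left ?_ (inv_nonneg.2 (hN j').le)
          linarith
      _ ≤ v j / 2 + (φ j' - φ j) := by
          rw [mul_add]
          refine add_le_add ?_ hgrow
          rw [← mul_div_assoc]
          exact div_le_div_of_nonneg_right (mul_le_mul_of_nonneg_right hinv hA0) (by norm_num)
  have hbase : ∀ j, v j ≤ φ j := by
    intro j
    set A := mball d i (ρ * (2:ℝ) ^ j) with hA
    have hi : i ∈ A := mem_mball.2 (by rw [h.self]; exact (hr j).le)
    have e : ∑ c ∈ A, d i c / (ρ * (2:ℝ) ^ j) ≤ (A.card:ℝ) - 1 := by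
      rw [← Finset.add_sum_erase _ _ hi, h.self, zero_div, zero_add]
      refine (Finset.sum_le_card_nsmul _ _ 1 fun c hc => ?_).trans (le_of_eq ?_)
      · exact (div_le_one (hr j)).2 (mem_mball.1 (Finset.mem_of_mem_erase hc))
      · rw [nsmul_eq_mul, mul_one, Finset.cast_card_erase_of_mem hi]
    have h2 := Real.one_sub_inv_le_log_of_pos (hN j)
    calc v j ≤ (A.card:ℝ)⁻¹ * ((A.card:ℝ) - 1) :=
          mul_le_mul_of_nonneg_left e (inv_nonneg.2 (hN j).le)
      _ = 1 - (A.card:ℝ)⁻¹ := by rw [mul_sub, inv_mul_cancel₀ (hN j).ne', mul_one]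
      _ ≤ _ := h2
  have key : ∀ S : Finset ℤ, S.Nonempty → ∀ M ∈ S, (∀ j ∈ S, j ≤ M) →
      ∑ j ∈ S, v j + v M ≤ 2 * φ M := by
    intro S
    induction S using Finset.induction_on_max with
    | empty => intro hne; exact absurd hne Finset.not_nonempty_empty
    | insert a S hlt ih =>
      intro _ M hM hmax
      have hMa : M = a := by
        rcases Finset.mem_insert.1 hM with h' | h'
        · exact h'
        · exact absurd (hmax a (Finset.mem_insert_self a S)) (not_le.2 (hlt M h'))
      subst hMa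
      rw [Finset.sum_insert (fun h' => lt_irrefl M (hlt M h'))]
      rcases S.eq_empty_or_nonempty with hS | hS
      · rw [hS, Finset.sum_empty, add_zero]
        linarith [hbase M]
      · have h1 := ih hS (S.max' hS) (S.max'_mem hS) (fun j hj => S.le_max' j hj)
        have h2 := hstep (S.max' hS) M (hlt _ (S.max'_mem hS))
        linarith
  rcases S.eq_empty_or_nonempty with hS | hS
  · rw [hS, Finset.sum_empty]; linarith [Real.log_natCast_nonneg n]
  · have h1 := key S hS (S.max' hS) (S.max'_mem hS) (fun j hj => S.le_max' j hj)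
    have h2 := lball_le (d := d) i (ρ * (2:ℝ) ^ S.max' hS)
    linarith [hv0 (S.max' hS)]

/-- Growth windows of three dyadic scales have total at most three times `log n`. -/
theorem sum_growth (i : Fin n) (S : Finset ℤ) :
    ∑ j ∈ S, (lball d i ((2:ℝ) ^ (j + 1)) - lball d i ((2:ℝ) ^ (j - 2))) ≤ 3 * Real.log n := by
  have hone : ∀ a : ℤ, ∑ j ∈ S, (lball d i ((2:ℝ) ^ (j + a + 1)) - lball d i ((2:ℝ) ^ (j + a))) ≤
      Real.log n := by
    intro a
    rcases S.eq_empty_or_nonempty with hS | hS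
    · rw [hS, Finset.sum_empty]; exact Real.log_natCast_nonneg n
    · have h := sum_increment_le (fun j => lball d i ((2:ℝ) ^ (j + a)))
        (fun x y hxy => lball_mono i (zpow_le_zpow_right₀ one_le_two (by omega)))
        (fun j => lball_nonneg i _) S (S.max' hS + 1)
        (fun j hj => by have := S.le_max' j hj; omega)
      refine le_trans (le_of_eq (Finset.sum_congr rfl fun j _ => ?_)) (h.trans (lball_le i _))
      rw [add_right_comm j a 1]
  have h0 := hone 0
  have h1 := hone (-1)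
  have h2 := hone (-2)
  simp only [add_zero] at h0
  rw [show (3:ℝ) * Real.log n = Real.log n + Real.log n + Real.log n by ring]
  refine le_trans (le_of_eq ?_) (add_le_add (add_le_add h0 h1) h2)
  rw [← Finset.sum_add_distrib, ← Finset.sum_add_distrib]
  refine Finset.sum_congr rfl fun j _ => ?_
  rw [show j + -1 + 1 = j by ring, show j + -2 + 1 = j + -1 by ring, ← sub_eq_add_neg j 2]
  ring

end Vale.Agent.P249.Every
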