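import Vale.Agent.P249.Every.Defs

/-!
Slope-threshold splitting of coordinates: a Lipschitz light part and a sparse heavy part whose
`ℓ_p` sum of norms reproduces the distance up to a small relative error.
-/

namespace Vale.Agent.P249.Every

open Finset

theorem geom_subset_le {r : ℝ} (hr0 : 0 ≤ r) (hr : r ≤ 1 / 2) (I : Finset ℕ) (i₀ : ℕ)
    (h : ∀ i ∈ I, i₀ ≤ i) : ∑ i ∈ I, r ^ i ≤ 2 * r ^ i₀ := by
  have hs : I ⊆ Finset.Ico i₀ (I.sup id + 1) := fun i hi =>
    Finset.mem_Ico.2 ⟨h i hi, Nat.lt_succ_of_le (Finset.le_sup (f := id) hi)⟩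
  refine (Finset.sum_le_sum_of_subset_of_nonneg hs fun i _ _ => pow_nonneg hr0 i).trans ?_
  refine (geom_sum_Ico_le_of_lt_one hr0 (by linarith)).trans ?_
  rw [div_le_iff₀ (by linarith)]
  nlinarith [pow_nonneg hr0 i₀]

/-- The level `i` threshold. -/
noncomputable def lev (i : ℕ) : ℝ := ((2:ℝ) ^ i)⁻¹

theorem lev_pos (i : ℕ) : 0 < lev i := by unfold lev; positivity

theorem lev_eq (i : ℕ) : lev i = (1 / 2 : ℝ) ^ i := by
  rw [lev, one_div, inv_pow]

theorem lev_anti {i j : ℕ} (h : i ≤ j) : lev j ≤ lev i := by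
  rw [lev_eq, lev_eq]; exact pow_le_pow_of_le_one (by norm_num) (by norm_num) h

theorem sum_lev_rpow_below {p : ℝ} (hp : 1 ≤ p) (I : Finset ℕ) {q : ℝ} (hq : 0 ≤ q) :
    ∑ i ∈ I.filter (fun i => lev i < q), lev i ^ p ≤ 2 * q ^ p := by
  set J := I.filter (fun i => lev i < q)
  rcases J.eq_empty_or_nonempty with h | h
  · rw [h, Finset.sum_empty]; positivity
  have hr0 : (0:ℝ) ≤ (1 / 2 : ℝ) ^ p := by positivity
  have hr : (1 / 2 : ℝ) ^ p ≤ 1 / 2 :=
    Real.rpow_le_self_of_le_one (by norm_num) (by norm_num) hp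
  have e : ∀ i, lev i ^ p = ((1 / 2 : ℝ) ^ p) ^ i := fun i => by
    rw [lev_eq, ← Real.rpow_natCast, ← Real.rpow_mul (by norm_num), mul_comm,
      Real.rpow_mul (by norm_num), Real.rpow_natCast]
  simp only [e]
  refine (geom_subset_le hr0 hr J (J.min' h) fun i hi => J.min'_le i hi).trans ?_
  rw [← e]
  have := (Finset.mem_filter.1 (J.min'_mem h)).2
  exact mul_le_mul_of_nonneg_left (Real.rpow_le_rpow (lev_pos _).le this.le (by linarith)) (by norm_num)

/-- The `ℓ_p` norm. -/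
noncomputable def lpn {ι : Type*} [Fintype ι] (p : ℝ) (f : ι → ℝ) : ℝ := (∑ z, |f z| ^ p) ^ p⁻¹

section lpn

variable {ι : Type*} [Fintype ι] {p : ℝ}

theorem lpn_sum_nonneg (f : ι → ℝ) : 0 ≤ ∑ z, |f z| ^ p :=
  Finset.sum_nonneg fun _ _ => Real.rpow_nonneg (abs_nonneg _) _

theorem lpn_nonneg (f : ι → ℝ) : 0 ≤ lpn p f := Real.rpow_nonneg (lpn_sum_nonneg f) _

theorem lpn_add (hp : 1 ≤ p) (f g : ι → ℝ) : lpn p (f + g) ≤ lpn p f + lpn p g := by
  simpa [lpn, one_div] using Real.Lp_add_le Finset.univ f g hp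

theorem lpn_mono (hp : 0 < p) {f g : ι → ℝ} (h : ∀ z, |f z| ≤ g z) : lpn p f ≤ lpn p g := by
  refine Real.rpow_le_rpow (lpn_sum_nonneg f) (Finset.sum_le_sum fun z _ => ?_) (by positivity)
  exact Real.rpow_le_rpow (abs_nonneg _) ((h z).trans (le_abs_self _)) hp.le

theorem lpn_neg (f : ι → ℝ) : lpn p (-f) = lpn p f := by simp [lpn]

theorem abs_lpn_sub (hp : 1 ≤ p) (f g : ι → ℝ) : |lpn p f - lpn p g| ≤ lpn p (f - g) := by
  have h1 := lpn_add hp g (f - g)
  have h2 := lpn_add hp f (-(f - g))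
  rw [lpn_neg] at h2
  simp only [add_sub_cancel] at h1
  rw [show f + -(f - g) = g by abel] at h2
  rw [abs_le]
  constructor <;> linarith

end lpn

variable {n K : ℕ} {p : ℝ} {x : Fin n → Fin K → ℝ}

theorem exists_ext (hp : 1 ≤ p) (z : Fin K) {L : ℝ} (hL : 0 ≤ L) (S : Finset (Fin n))
    (hS : ∀ i ∈ S, ∀ j ∈ S, |x i z - x j z| ≤ L * pdist p (x i) (x j)) :
    ∃ g : Fin n → ℝ, (∀ i j, |g i - g j| ≤ L * pdist p (x i) (x j)) ∧ ∀ i ∈ S, g i = x i z := by
  rcases S.eq_empty_or_nonempty with h | h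
  · exact ⟨fun _ => 0, fun i j => by simpa using mul_nonneg hL (pdist_nonneg _ _),
      fun i hi => by simp [h] at hi⟩
  refine ⟨fun i => S.inf' h (fun y => x y z + L * pdist p (x i) (x y)), ?_, ?_⟩
  · have key : ∀ i j, S.inf' h (fun y => x y z + L * pdist p (x i) (x y)) ≤
        S.inf' h (fun y => x y z + L * pdist p (x j) (x y)) + L * pdist p (x i) (x j) := by
      intro i j
      obtain ⟨y, hy, e⟩ := S.exists_mem_eq_inf' h (fun y => x y z + L * pdist p (x j) (x y))
      rw [e]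
      refine (Finset.inf'_le _ hy).trans ?_
      have := mul_le_mul_of_nonneg_left (pdist_triangle hp (x i) (x j) (x y)) hL
      linarith
    intro i j
    rw [abs_le]
    have h1 := key i j
    have h2 := key j i
    rw [pdist_comm (x j) (x i)] at h2
    constructor <;> linarith
  · intro i hi
    refine le_antisymm ((Finset.inf'_le _ hi).trans (le_of_eq ?_)) (Finset.le_inf' _ _ fun y hy => ?_)
    · rw [pdist_self (by linarith) (x i)]; ring
    · have := (abs_le.1 (hS i hi y hy)).2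
      linarith

theorem exists_levels (hp : 1 ≤ p) {Φ : ℝ}
    (hS : HasScheme p (fun i j => pdist p (x i) (x j)) Φ) :
    ∃ (bad : Fin K → ℕ → Fin n → Prop) (g : Fin K → ℕ → Fin n → ℝ),
      (∀ z i, ∀ u v, |g z i u - g z i v| ≤ 4 * lev i * pdist p (x u) (x v)) ∧
      (∀ z i u, ¬bad z i u → g z i u = x u z) ∧
      ∀ u, ∀ B : Finset (Fin K × ℕ), (∀ b ∈ B, bad b.1 b.2 u) →
        ∑ b ∈ B, lev b.2 ^ p ≤ 8 * Φ := by
  classical
  have hp0 : 0 < p := by linarith
  obtain ⟨T, _, t, ν, act, ht, hν0, hν1, hcov, hmass⟩ := hS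
  let bad : Fin K → ℕ → Fin n → Prop := fun z i u =>
    ∃ T₀, act T₀ u ∧ 1 / 4 < ∑ c ∈ univ.filter (fun c => lev i * t T₀ < |x u z - x c z|), ν T₀ u c
  have hgood : ∀ z i, ∀ u ∈ univ.filter (fun u => ¬bad z i u),
      ∀ v ∈ univ.filter (fun u => ¬bad z i u),
      |x u z - x v z| ≤ 4 * lev i * pdist p (x u) (x v) := by
    intro z i u hu v hv
    simp only [Finset.mem_filter, Finset.mem_univ, true_and] at hu hv
    rcases (pdist_nonneg (p := p) (x u) (x v)).eq_or_lt with h0 | h0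
    · have := abs_le_pdist hp0 (x u) (x v) z
      rw [← h0] at this ⊢
      simpa using this
    obtain ⟨T₀, hau, hav, htd, hov⟩ := hcov u v h0
    have h1 : ∑ c ∈ univ.filter (fun c => lev i * t T₀ < |x u z - x c z|), ν T₀ u c ≤ 1 / 4 :=
      not_lt.1 fun h => hu ⟨T₀, hau, h⟩
    have h2 : ∑ c ∈ univ.filter (fun c => lev i * t T₀ < |x v z - x c z|), ν T₀ v c ≤ 1 / 4 :=
      not_lt.1 fun h => hv ⟨T₀, hav, h⟩
    obtain ⟨c, hc1, hc2⟩ : ∃ c, |x u z - x c z| ≤ lev i * t T₀ ∧
        |x v z - x c z| ≤ lev i * t T₀ := by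
      by_contra hne
      simp only [not_exists, not_and_or, not_le] at hne
      have hle : ∀ c, min (ν T₀ u c) (ν T₀ v c) ≤
          (if lev i * t T₀ < |x u z - x c z| then ν T₀ u c else 0) +
            (if lev i * t T₀ < |x v z - x c z| then ν T₀ v c else 0) := by
        intro c
        rcases hne c with h | h
        · rw [if_pos h]
          exact (min_le_left _ _).trans (le_add_of_nonneg_right
            (by split_ifs <;> first | exact hν0 _ _ _ | exact le_rfl))
        · rw [if_pos h]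
          exact (min_le_right _ _).trans (le_add_of_nonneg_left
            (by split_ifs <;> first | exact hν0 _ _ _ | exact le_rfl))
      have := (Finset.sum_le_sum (s := univ) fun c _ => hle c)
      rw [Finset.sum_add_distrib, ← Finset.sum_filter, ← Finset.sum_filter] at this
      linarith
    have := abs_sub_le (x u z) (x c z) (x v z)
    rw [abs_sub_comm (x c z) (x v z)] at this
    have := mul_le_mul_of_nonneg_left htd (lev_pos i).le
    linarith
  choose g hg1 hg2 using fun z i =>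
    exists_ext hp z (L := 4 * lev i) (mul_nonneg (by norm_num) (lev_pos i).le) _ (hgood z i)
  refine ⟨bad, g, hg1, fun z i u hu => hg2 z i u (by simp [hu]), fun u B hB => ?_⟩
  let q : T → Fin n → Fin K → ℝ := fun T₀ c z => |x u z - x c z| / t T₀
  have hq0 : ∀ T₀ c z, 0 ≤ q T₀ c z := fun T₀ c z => div_nonneg (abs_nonneg _) (ht T₀).le
  set A := univ.filter (fun T₀ => act T₀ u)
  have hstep : ∀ b ∈ B, lev b.2 ^ p ≤ 4 * ∑ T₀ ∈ A, ∑ c,
      ν T₀ u c * (if lev b.2 < q T₀ c b.1 then lev b.2 ^ p else 0) := by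
    intro b hb
    obtain ⟨T₀, hT, hlt⟩ := hB b hb
    have hT' : T₀ ∈ A := by simp [A, hT]
    have hnn : ∀ T₁ ∈ A, 0 ≤ ∑ c, ν T₁ u c * (if lev b.2 < q T₁ c b.1 then lev b.2 ^ p else 0) :=
      fun T₁ _ => Finset.sum_nonneg fun c _ => mul_nonneg (hν0 _ _ _)
        (by split_ifs <;> first | exact le_rfl | exact Real.rpow_nonneg (lev_pos _).le _)
    refine le_trans ?_ (mul_le_mul_of_nonneg_left (Finset.single_le_sum hnn hT') (by norm_num))
    have e : ∑ c, ν T₀ u c * (if lev b.2 < q T₀ c b.1 then lev b.2 ^ p else 0) =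
        (∑ c ∈ univ.filter (fun c => lev b.2 * t T₀ < |x u b.1 - x c b.1|), ν T₀ u c) *
          lev b.2 ^ p := by
      rw [Finset.sum_filter, Finset.sum_mul]
      refine Finset.sum_congr rfl fun c _ => ?_
      simp only [q, lt_div_iff₀ (ht T₀)]
      split_ifs <;> simp
    rw [e]
    have := mul_le_mul_of_nonneg_right hlt.le (Real.rpow_nonneg (lev_pos b.2).le p)
    linarith
  have hgeo : ∀ T₀ c, ∑ b ∈ B, (if lev b.2 < q T₀ c b.1 then lev b.2 ^ p else 0) ≤
      2 * (pdist p (x u) (x c) / t T₀) ^ p := by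
    intro T₀ c
    rw [Real.div_rpow (pdist_nonneg _ _) (ht T₀).le, pdist_rpow hp0, Finset.sum_div, Finset.mul_sum]
    refine le_trans (Finset.sum_le_sum_of_subset_of_nonneg
      (t := (univ : Finset (Fin K)) ×ˢ B.image Prod.snd)
      (fun b hb => Finset.mem_product.2 ⟨Finset.mem_univ _, Finset.mem_image_of_mem _ hb⟩)
      fun b _ _ => by split_ifs <;> first | exact le_rfl | exact Real.rpow_nonneg (lev_pos _).le _) ?_
    rw [Finset.sum_product]
    refine Finset.sum_le_sum fun z _ => ?_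
    rw [← Finset.sum_filter, ← Real.div_rpow (abs_nonneg _) (ht T₀).le]
    exact sum_lev_rpow_below hp _ (hq0 T₀ c z)
  calc ∑ b ∈ B, lev b.2 ^ p
      ≤ ∑ b ∈ B, 4 * ∑ T₀ ∈ A, ∑ c,
          ν T₀ u c * (if lev b.2 < q T₀ c b.1 then lev b.2 ^ p else 0) := Finset.sum_le_sum hstep
    _ = 4 * ∑ T₀ ∈ A, ∑ c, ν T₀ u c *
          ∑ b ∈ B, (if lev b.2 < q T₀ c b.1 then lev b.2 ^ p else 0) := by
        rw [← Finset.mul_sum, Finset.sum_comm]
        congr 1
        refine Finset.sum_congr rfl fun T₀ _ => ?_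
        rw [Finset.sum_comm]
        simp only [Finset.mul_sum]
    _ ≤ 4 * ∑ T₀ ∈ A, ∑ c, ν T₀ u c * (2 * (pdist p (x u) (x c) / t T₀) ^ p) := by
        refine mul_le_mul_of_nonneg_left (Finset.sum_le_sum fun T₀ _ => Finset.sum_le_sum
          fun c _ => mul_le_mul_of_nonneg_left (hgeo T₀ c) (hν0 _ _ _)) (by norm_num)
    _ = 8 * ∑ T₀ ∈ A, ∑ c, ν T₀ u c * (pdist p (x u) (x c) / t T₀) ^ p := by
        simp only [Finset.mul_sum]
        exact Finset.sum_congr rfl fun T₀ _ => Finset.sum_congr rfl fun c _ => by ring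
    _ ≤ 8 * Φ := mul_le_mul_of_nonneg_left
        (hmass u A fun T₀ hT₀ => (Finset.mem_filter.1 hT₀).2) (by norm_num)

/-- The deviation of one window from the ideal split, in terms of the bad levels. -/
theorem window_dev {m : ℕ} (hm : 1 ≤ m) {A dd : ℝ} (b : ℕ) (hdd : 0 ≤ dd)
    (D : ℝ) (hD : |D| = A) (β : Fin m → ℝ) (hβ0 : ∀ k, 0 ≤ β k)
    (hβ : ∀ k : Fin m, β k = lev (b + k) ∨ β k = 0) (Dl : Fin m → ℝ)
    (h1 : ∀ k, |Dl k| ≤ 4 * lev (b + k) * dd) (h2 : ∀ k, β k = 0 → Dl k = D) :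
    |(∑ k, Dl k) / m| ≤ 8 * lev b / m * dd ∧
    (A ≤ dd * lev (b + m) → |D - (∑ k, Dl k) / m| ≤ 5 * dd / m * ∑ k, β k) ∧
    (dd * lev b ≤ A → |(∑ k, Dl k) / m| ≤ 8 / m * A) ∧
    |D - (∑ k, Dl k) / m| ≤ A + 5 * dd / m * ∑ k, β k := by
  have hm0 : (0:ℝ) < m := by exact_mod_cast hm
  have hL : ∑ k : Fin m, lev (b + k) ≤ 2 * lev b := by
    rw [Fin.sum_univ_eq_sum_range (fun k => lev (b + k)) m]
    simp only [lev_eq, pow_add, ← Finset.mul_sum]
    rw [mul_comm (2:ℝ)]
    refine mul_le_mul_of_nonneg_left ?_ (by positivity)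
    exact (geom_subset_le (by norm_num) le_rfl (range m) 0 fun i _ => Nat.zero_le i).trans (by simp)
  have hDl : |(∑ k, Dl k) / m| ≤ 8 * lev b / m * dd := by
    rw [abs_div, Nat.abs_cast, div_le_iff₀ hm0]
    refine (Finset.abs_sum_le_sum_abs _ _).trans ((Finset.sum_le_sum fun k _ => h1 k).trans ?_)
    rw [← Finset.sum_mul, ← Finset.mul_sum]
    have := mul_le_mul_of_nonneg_right hL hdd
    have e : 8 * lev b / m * dd * m = 8 * lev b * dd := by field_simp
    rw [e]; linarith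
  have e : D - (∑ k, Dl k) / m = (∑ k, (D - Dl k)) / m := by
    rw [Finset.sum_sub_distrib, Finset.sum_const, Finset.card_univ, Fintype.card_fin, nsmul_eq_mul]
    field_simp
  have hA0 : 0 ≤ A := hD ▸ abs_nonneg D
  have hterm : ∀ k, |D - Dl k| ≤ (if β k = 0 then 0 else A) + 4 * dd * β k := by
    intro k
    by_cases h0 : β k = 0
    · simp [h0, h2 k h0]
    · rw [if_neg h0, (hβ k).resolve_right h0]
      have := abs_sub D (Dl k)
      have := h1 k
      linarith
  have hsum : ∀ (g : Fin m → ℝ), (∀ k, |D - Dl k| ≤ g k) →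
      |D - (∑ k, Dl k) / m| ≤ (∑ k, g k) / m := by
    intro g hg
    rw [e, abs_div, Nat.abs_cast]
    exact div_le_div_of_nonneg_right
      ((Finset.abs_sum_le_sum_abs _ _).trans (Finset.sum_le_sum fun k _ => hg k)) hm0.le
  refine ⟨hDl, fun hlow => ?_, fun hhigh => hDl.trans ?_, ?_⟩
  · refine (hsum (fun k => 5 * dd * β k) fun k => (hterm k).trans ?_).trans (le_of_eq ?_)
    · by_cases h0 : β k = 0
      · simp [h0]
      · rw [if_neg h0, (hβ k).resolve_right h0]
        have := mul_le_mul_of_nonneg_left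
          (lev_anti (show b + k ≤ b + m by omega)) hdd
        linarith
    · rw [← Finset.mul_sum]; ring
  · rw [div_mul_eq_mul_div, div_mul_eq_mul_div]
    refine div_le_div_of_nonneg_right ?_ hm0.le
    linarith
  · refine (hsum (fun k => A + 5 * dd * β k) fun k => (hterm k).trans ?_).trans (le_of_eq ?_)
    · have := mul_nonneg hdd (hβ0 k)
      split_ifs <;> linarith
    · rw [Finset.sum_add_distrib, Finset.sum_const, Finset.card_univ, Fintype.card_fin,
        nsmul_eq_mul, ← Finset.mul_sum]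
      field_simp

/-- The splitting theorem. -/
theorem exists_split (hp : 1 ≤ p) {Φ : ℝ}
    (hS : HasScheme p (fun i j => pdist p (x i) (x j)) Φ) (a m W : ℕ) (hm : 1 ≤ m) (hW : 1 ≤ W) :
    ∃ l h : Fin n → Fin K × Fin W → ℝ,
      (∀ i j z, |l i z - l j z| ≤ 8 * ((2:ℝ) ^ a)⁻¹ * pdist p (x i) (x j)) ∧
      (∀ i, ∀ S : Finset (Fin K × Fin W), (∀ z ∈ S, h i z ≠ 0) →
        (S.card : ℝ) ≤ 8 * Φ * ((2:ℝ) ^ (a + W * m)) ^ p) ∧
      ∀ i j, |(((∑ z, |l i z - l j z| ^ p) + ∑ z, |h i z - h j z| ^ p) / W) ^ p⁻¹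
          - pdist p (x i) (x j)| ≤
        400 * (Φ ^ p⁻¹ / (m * (W:ℝ) ^ p⁻¹) + 1 / m + ((W:ℝ) ^ p⁻¹)⁻¹) * pdist p (x i) (x j) := by
  classical
  have hp0 : 0 < p := by linarith
  have hm0 : (0:ℝ) < m := by exact_mod_cast hm
  have hW0 : (0:ℝ) < W := by exact_mod_cast hW
  obtain ⟨bad, g, hlip, hgood, hmass⟩ := exists_levels hp hS
  let e : Fin W → Fin m → ℕ := fun w k => a + (w * m + k)
  have einj : ∀ w w' k k', e w k = e w' k' → w = w' ∧ k = k' := by
    intro w w' k k' h
    have h' : (w:ℕ) * m + k = w' * m + k' := by simp only [e] at h; omega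
    have h1 := congrArg (fun i => i / m) h'
    have h2 := congrArg (fun i => i % m) h'
    simp only [Nat.mul_comm _ m, Nat.mul_add_div (show m > 0 by omega), Nat.div_eq_of_lt k.2,
      Nat.div_eq_of_lt k'.2, add_zero, Nat.mul_add_mod, Nat.mod_eq_of_lt k.2,
      Nat.mod_eq_of_lt k'.2] at h1 h2
    exact ⟨Fin.ext h1, Fin.ext h2⟩
  let l : Fin n → Fin K × Fin W → ℝ := fun i z => (∑ k, g z.1 (e z.2 k) i) / m
  let h : Fin n → Fin K × Fin W → ℝ := fun i z => x i z.1 - l i z
  have elev : ∀ w k, e w k = (a + w * m) + k := fun w k => by simp only [e]; omega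
  have hlev_a : ∀ w : Fin W, lev (a + w * m) ≤ ((2:ℝ) ^ a)⁻¹ := fun w =>
    (lev_anti (Nat.le_add_right a _)).trans (le_of_eq rfl)
  -- bad levels at a point
  have hcount : ∀ i, ∀ B : Finset ((Fin K × Fin W) × Fin m),
      (∀ b ∈ B, bad b.1.1 (e b.1.2 b.2) i) →
      ∑ b ∈ B, lev (e b.1.2 b.2) ^ p ≤ 8 * Φ := by
    intro i B hB
    have inj : Set.InjOn (fun b : (Fin K × Fin W) × Fin m => (b.1.1, e b.1.2 b.2)) B := by
      rintro ⟨⟨z, w⟩, k⟩ _ ⟨⟨z', w'⟩, k'⟩ _ hbb
      simp only [Prod.mk.injEq] at hbb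
      obtain ⟨rfl, hbb⟩ := hbb
      obtain ⟨rfl, rfl⟩ := einj _ _ _ _ hbb
      rfl
    rw [← Finset.sum_image (f := fun b : Fin K × ℕ => lev b.2 ^ p) inj]
    refine hmass i _ fun b hb => ?_
    obtain ⟨b', hb', rfl⟩ := Finset.mem_image.1 hb
    exact hB b' hb'
  refine ⟨l, h, ?_, ?_, ?_⟩
  · intro i j z
    have hwd := (window_dev (m := m) hm (a + z.2 * m) (pdist_nonneg (p := p) (x i) (x j))
      (x i z.1 - x j z.1) rfl
      (fun k => lev ((a + z.2 * m) + k)) (fun k => (lev_pos _).le) (fun k => Or.inl rfl)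
      (fun k => g z.1 (e z.2 k) i - g z.1 (e z.2 k) j)
      (fun k => by rw [← elev]; exact hlip _ _ _ _)
      (fun k h0 => absurd h0 (lev_pos _).ne')).1
    rw [Finset.sum_sub_distrib, sub_div] at hwd
    refine hwd.trans (mul_le_mul_of_nonneg_right ?_ (pdist_nonneg _ _))
    refine (div_le_self (by linarith [lev_pos (a + z.2 * m)]) (by exact_mod_cast hm)).trans ?_
    linarith [hlev_a z.2]
  · intro i S hSne
    have hex : ∀ z ∈ S, ∃ k : Fin m, bad z.1 (e z.2 k) i := by
      intro z hz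
      by_contra hne
      simp only [not_exists] at hne
      refine hSne z hz ?_
      simp only [h, l]
      rw [Finset.sum_congr rfl (fun k _ => hgood _ _ _ (hne k)), Finset.sum_const,
        Finset.card_univ, Fintype.card_fin, nsmul_eq_mul]
      field_simp
      ring
    have : Nonempty (Fin m) := ⟨⟨0, hm⟩⟩
    choose! kz hkz using hex
    have hbound := hcount i (S.image fun z => (z, kz z)) (fun b hb => by
      obtain ⟨z, hz, rfl⟩ := Finset.mem_image.1 hb
      exact hkz z hz)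
    rw [Finset.sum_image (fun z _ z' _ h => (Prod.ext_iff.1 h).1)] at hbound
    have hlow : ∀ z ∈ S, (((2:ℝ) ^ (a + W * m)) ^ p)⁻¹ ≤ lev (e z.2 (kz z)) ^ p := by
      intro z _
      rw [← Real.inv_rpow (by positivity)]
      refine Real.rpow_le_rpow (by positivity) (lev_anti ?_) hp0.le
      have h1 : ((z.2 : ℕ) + 1) * m ≤ W * m := Nat.mul_le_mul_right m z.2.2
      have h2 := (kz z).2
      rw [Nat.add_mul] at h1
      simp only [e]
      omega
    have := Finset.card_nsmul_le_sum S _ _ hlow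
    rw [nsmul_eq_mul] at this
    have hpos : (0:ℝ) < ((2:ℝ) ^ (a + W * m)) ^ p := by positivity
    have h3 := this.trans hbound
    rwa [← div_eq_mul_inv, div_le_iff₀ hpos] at h3
  intro i j
  set dd := pdist p (x i) (x j) with hdd
  have hdd0 : 0 ≤ dd := pdist_nonneg _ _
  let A : Fin K → ℝ := fun z => |x i z - x j z|
  let β : (Fin K × Fin W) → Fin m → ℝ := fun z k =>
    if bad z.1 (e z.2 k) i ∨ bad z.1 (e z.2 k) j then lev (e z.2 k) else 0
  have hβ0 : ∀ z k, 0 ≤ β z k := fun z k => by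
    simp only [β]; split_ifs
    exacts [(lev_pos _).le, le_rfl]
  let mid : Fin K × Fin W → Prop := fun z =>
    dd * lev (a + z.2 * m + m) < A z.1 ∧ A z.1 < dd * lev (a + z.2 * m)
  let I := Bool × (Fin K × Fin W)
  let P : I → ℝ := fun q => 5 * dd / m * ∑ k, β q.2 k
  let Q : I → ℝ := fun q => 8 / m * A q.2.1
  let R : I → ℝ := fun q => if mid q.2 then 2 * A q.2.1 else 0
  let act : I → ℝ := fun q => if q.1 then l i q.2 - l j q.2 else h i q.2 - h j q.2
  let idl : I → ℝ := fun q =>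
    if mid q.2 then 0 else if A q.2.1 ≤ dd * lev (a + q.2.2 * m + m) then
      (if q.1 then x i q.2.1 - x j q.2.1 else 0) else (if q.1 then 0 else x i q.2.1 - x j q.2.1)
  have hP0 : ∀ q, 0 ≤ P q := fun q => mul_nonneg (by positivity)
    (Finset.sum_nonneg fun k _ => hβ0 _ _)
  have hA0 : ∀ z, 0 ≤ A z := fun z => abs_nonneg _
  have hQ0 : ∀ q, 0 ≤ Q q := fun q => mul_nonneg (by positivity) (hA0 _)
  have hdev : ∀ q, |(act - idl) q| ≤ (P + Q + R) q := by
    rintro ⟨s, z, w⟩
    have hwd := window_dev (m := m) hm (a + w * m) hdd0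
      (x i z - x j z) rfl (β (z, w)) (hβ0 _)
      (fun k => by simp only [β]; rw [← elev]; split_ifs <;> simp)
      (fun k => g z (e w k) i - g z (e w k) j)
      (fun k => by rw [← elev]; exact hlip _ _ _ _)
      (fun k h0 => by
        simp only [β] at h0
        split_ifs at h0 with hb
        · exact absurd h0 (lev_pos _).ne'
        · rw [not_or] at hb
          rw [hgood _ _ _ hb.1, hgood _ _ _ hb.2])
    rw [Finset.sum_sub_distrib, sub_div] at hwd
    obtain ⟨_, hlow, hhigh, hgen⟩ := hwd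
    have hDl : l i (z, w) - l j (z, w) =
        (∑ k, g z (e w k) i) / (m:ℝ) - (∑ k, g z (e w k) j) / m := rfl
    have hDh : h i (z, w) - h j (z, w) = (x i z - x j z) - (l i (z, w) - l j (z, w)) := by
      simp only [h]; ring
    rw [← hDl] at hlow hhigh hgen
    have := hP0 (s, z, w)
    have := hQ0 (s, z, w)
    simp only [P, Q, Pi.add_apply, Pi.sub_apply, act, idl, R, A] at *
    rw [hDh]
    by_cases hmid : mid (z, w)
    · rw [if_pos hmid, if_pos hmid]
      cases s
      · simp only [Bool.false_eq_true, if_false, sub_zero]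
        have := abs_nonneg (x i z - x j z)
        linarith
      · simp only [if_true, sub_zero]
        have := abs_sub (x i z - x j z) ((x i z - x j z) - (l i (z, w) - l j (z, w)))
        rw [sub_sub_cancel] at this
        linarith
    rw [if_neg hmid, if_neg hmid]
    by_cases hle : |x i z - x j z| ≤ dd * lev (a + w * m + m)
    · rw [if_pos hle]
      have := hlow hle
      cases s
      · simp only [Bool.false_eq_true, if_false, sub_zero]
        linarith
      · simp only [if_true]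
        rw [abs_sub_comm]
        linarith
    · rw [if_neg hle]
      simp only [mid, A, not_and, not_lt] at hmid
      have := hhigh (hmid (lt_of_not_ge hle))
      cases s
      · simp only [Bool.false_eq_true, if_false]
        rw [sub_sub_cancel_left, abs_neg]
        linarith
      · simp only [if_true, sub_zero]
        linarith
  have hkey := (abs_lpn_sub hp act idl).trans ((lpn_mono hp0 hdev).trans
    ((lpn_add hp (P + Q) R).trans (add_le_add (lpn_add hp P Q) le_rfl)))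
  -- the four sums
  have hsumA : ∑ z : Fin K, A z ^ p = dd ^ p := (pdist_rpow hp0 _ _).symm
  have hΦ : 0 ≤ Φ := by
    obtain ⟨T, _, t, ν, aT, -, -, -, -, hms⟩ := hS
    simpa using hms i ∅ (by simp)
  have hPn : lpn p P ≤ 320 * dd * Φ ^ p⁻¹ / m := by
    have hsq : ∀ z, (∑ k, β z k) ^ p ≤ (2:ℝ) ^ p * ∑ k, β z k ^ p := by
      intro z
      obtain ⟨J, hJ⟩ : ∃ J : Finset (Fin m), J =
          univ.filter (fun k => bad z.1 (e z.2 k) i ∨ bad z.1 (e z.2 k) j) := ⟨_, rfl⟩
      rcases J.eq_empty_or_nonempty with hemp | hne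
      · have : ∀ k, β z k = 0 := fun k => if_neg fun hb =>
          Finset.notMem_empty k (by rw [← hemp, hJ]; simp [hb])
        simp [this, Real.zero_rpow hp0.ne']
      · obtain ⟨k₀, hk₀, hle₀⟩ : ∃ k₀ ∈ J, ∀ k ∈ J, k₀ ≤ k :=
          ⟨J.min' hne, J.min'_mem hne, fun k hk => J.min'_le k hk⟩
        have hmin := hk₀
        rw [hJ, Finset.mem_filter] at hmin
        have hs : ∑ k, β z k ≤ 2 * lev (e z.2 k₀) := by
          simp only [β]
          rw [← Finset.sum_filter, ← hJ,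
            ← Finset.sum_image (f := fun i => lev i) (g := fun k => e z.2 k)
              (fun k _ k' _ h => (einj _ _ _ _ h).2)]
          simp only [lev_eq]
          refine geom_subset_le (by norm_num) le_rfl _ _ fun i hi => ?_
          obtain ⟨k, hk, rfl⟩ := Finset.mem_image.1 hi
          have h' := hle₀ k hk
          rw [Fin.le_def] at h'
          simp only [e]; omega
        refine (Real.rpow_le_rpow (Finset.sum_nonneg fun k _ => hβ0 z k) hs hp0.le).trans ?_
        rw [Real.mul_rpow (by norm_num) (lev_pos _).le]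
        refine mul_le_mul_of_nonneg_left (le_trans (le_of_eq ?_) (Finset.single_le_sum
          (fun k _ => Real.rpow_nonneg (hβ0 z k) p) (Finset.mem_univ k₀))) (by positivity)
        simp only [β, if_pos hmin.2]
    have hone : ∀ u : Fin n, ∑ z : Fin K × Fin W, ∑ k : Fin m,
        (if bad z.1 (e z.2 k) u then lev (e z.2 k) ^ p else 0) ≤ 8 * Φ := by
      intro u
      rw [← Fintype.sum_prod_type'
        (f := fun (z : Fin K × Fin W) (k : Fin m) => if bad z.1 (e z.2 k) u then lev (e z.2 k) ^ p else 0), ← Finset.sum_filter]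
      exact hcount u _ fun b hb => (Finset.mem_filter.1 hb).2
    have hall : ∑ z : Fin K × Fin W, ∑ k, β z k ^ p ≤ 16 * Φ := by
      calc ∑ z : Fin K × Fin W, ∑ k, β z k ^ p
          ≤ ∑ z : Fin K × Fin W, ∑ k : Fin m,
              ((if bad z.1 (e z.2 k) i then lev (e z.2 k) ^ p else 0) +
               (if bad z.1 (e z.2 k) j then lev (e z.2 k) ^ p else 0)) := by
            refine Finset.sum_le_sum fun z _ => Finset.sum_le_sum fun k _ => ?_
            have := Real.rpow_nonneg (lev_pos (e z.2 k)).le p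
            simp only [β]
            by_cases h1 : bad z.1 (e z.2 k) i <;> by_cases h2 : bad z.1 (e z.2 k) j <;>
              simp [h1, h2, Real.zero_rpow hp0.ne', this]
        _ ≤ 16 * Φ := by
            simp only [Finset.sum_add_distrib]
            linarith [hone i, hone j]
    have hc : (0:ℝ) ≤ 5 * dd / m := by positivity
    have hsumP : ∑ q, |P q| ^ p ≤ (10 * dd / m) ^ p * (32 * Φ) := by
      calc ∑ q, |P q| ^ p = 2 * ∑ z, (5 * dd / m) ^ p * (∑ k, β z k) ^ p := by
            simp only [abs_of_nonneg (hP0 _)]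
            simp only [P, Real.mul_rpow hc (Finset.sum_nonneg fun k _ => hβ0 _ k)]
            simp [I, Fintype.sum_prod_type, two_mul]
        _ ≤ 2 * ∑ z, (5 * dd / m) ^ p * ((2:ℝ) ^ p * ∑ k, β z k ^ p) := by
            gcongr with z; exact hsq z
        _ = 2 * ((10 * dd / m) ^ p * ∑ z, ∑ k, β z k ^ p) := by
            rw [show 10 * dd / (m:ℝ) = (5 * dd / m) * 2 by ring,
              Real.mul_rpow hc (by norm_num), ← Finset.mul_sum]
            simp only [← mul_assoc, ← Finset.mul_sum]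
        _ ≤ _ := by
            have := mul_le_mul_of_nonneg_left hall (Real.rpow_nonneg (by positivity : (0:ℝ) ≤ 10 * dd / m) p)
            linarith
    refine (Real.rpow_le_rpow (lpn_sum_nonneg P) hsumP (by positivity)).trans ?_
    rw [Real.mul_rpow (by positivity) (by positivity), Real.rpow_rpow_inv (by positivity) hp0.ne',
      Real.mul_rpow (by norm_num) hΦ]
    have h32 : (32:ℝ) ^ p⁻¹ ≤ 32 := Real.rpow_le_self_of_one_le (by norm_num) (inv_le_one_of_one_le₀ hp)
    calc 10 * dd / m * ((32:ℝ) ^ p⁻¹ * Φ ^ p⁻¹) ≤ 10 * dd / m * (32 * Φ ^ p⁻¹) := by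
          gcongr
      _ = _ := by ring
  have h2 : (2:ℝ) ^ p⁻¹ ≤ 2 := Real.rpow_le_self_of_one_le one_le_two (inv_le_one_of_one_le₀ hp)
  have hWr : 0 < (W:ℝ) ^ p⁻¹ := by positivity
  have hscale : ∀ c, 0 ≤ c → (∑ q : I, (c * A q.2.1) ^ p) = c ^ p * (2 * W * dd ^ p) := by
    intro c hc
    simp only [Real.mul_rpow hc (hA0 _)]
    simp only [I, Fintype.sum_prod_type, Finset.sum_const, Finset.card_univ, Fintype.card_fin,
      Fintype.card_bool, nsmul_eq_mul, ← Finset.mul_sum, hsumA]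
    push_cast; ring
  have hQn : lpn p Q ≤ 16 / m * (W:ℝ) ^ p⁻¹ * dd := by
    rw [lpn]
    simp only [abs_of_nonneg (hQ0 _)]
    simp only [Q]
    rw [hscale _ (by positivity), Real.mul_rpow (by positivity) (by positivity),
      Real.rpow_rpow_inv (by positivity) hp0.ne', Real.mul_rpow (by positivity) (by positivity),
      Real.mul_rpow (by positivity) (by positivity), Real.rpow_rpow_inv hdd0 hp0.ne']
    calc 8 / m * ((2:ℝ) ^ p⁻¹ * (W:ℝ) ^ p⁻¹ * dd) ≤ 8 / m * (2 * (W:ℝ) ^ p⁻¹ * dd) := by gcongr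
      _ = _ := by ring
  have hone : ∀ z, (univ.filter (fun w : Fin W => mid (z, w))).card ≤ 1 := by
    intro z
    refine Finset.card_le_one.2 fun w hw w' hw' => ?_
    simp only [Finset.mem_filter, Finset.mem_univ, true_and, mid] at hw hw'
    by_contra hne
    rcases lt_or_gt_of_ne (fun h => hne (Fin.ext h) : (w:ℕ) ≠ w') with h | h
    · have : a + (w:ℕ) * m + m ≤ a + w' * m := by
        have := Nat.mul_le_mul_right m (Nat.succ_le_of_lt h); rw [Nat.succ_mul] at this; omega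
      have := mul_le_mul_of_nonneg_left (lev_anti this) hdd0
      linarith [hw.1, hw'.2]
    · have : a + (w':ℕ) * m + m ≤ a + w * m := by
        have := Nat.mul_le_mul_right m (Nat.succ_le_of_lt h); rw [Nat.succ_mul] at this; omega
      have := mul_le_mul_of_nonneg_left (lev_anti this) hdd0
      linarith [hw'.1, hw.2]
  have hmidsum : ∑ z : Fin K × Fin W, (if mid z then A z.1 ^ p else 0) ≤ dd ^ p := by
    rw [Fintype.sum_prod_type, ← hsumA]
    refine Finset.sum_le_sum fun z _ => ?_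
    rw [← Finset.sum_filter]
    dsimp only
    rw [Finset.sum_const, nsmul_eq_mul]
    exact mul_le_of_le_one_left (Real.rpow_nonneg (hA0 z) p) (by exact_mod_cast hone z)
  have hRn : lpn p R ≤ 4 * dd := by
    have : ∑ q, |R q| ^ p ≤ (4 * dd) ^ p := by
      calc ∑ q, |R q| ^ p = 2 * ((2:ℝ) ^ p * ∑ z : Fin K × Fin W, if mid z then A z.1 ^ p else 0) := by
            have e : ∀ q : I, |R q| ^ p = (2:ℝ) ^ p * (if mid q.2 then A q.2.1 ^ p else 0) := by
              intro q
              simp only [R]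
              split_ifs
              · rw [abs_of_nonneg (by linarith [hA0 q.2.1]), Real.mul_rpow (by norm_num) (hA0 _)]
              · simp [Real.zero_rpow hp0.ne']
            simp only [e]
            simp [I, Fintype.sum_prod_type, two_mul, Finset.mul_sum]
        _ ≤ (2:ℝ) ^ p * ((2:ℝ) ^ p * dd ^ p) := by
            have h2' : (2:ℝ) ≤ (2:ℝ) ^ p := Real.self_le_rpow_of_one_le one_le_two hp
            gcongr
        _ = _ := by
            rw [show 4 * dd = 2 * (2 * dd) by ring, Real.mul_rpow (by norm_num) (by positivity),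
              Real.mul_rpow (by norm_num) hdd0]
    exact (Real.rpow_le_rpow (lpn_sum_nonneg R) this (by positivity)).trans
      (le_of_eq (Real.rpow_rpow_inv (by positivity) hp0.ne'))
  -- the ideal vector
  have hidl : ∑ q, |idl q| ^ p = W * dd ^ p - ∑ z, (if mid z then A z.1 ^ p else 0) := by
    have : ∀ z : Fin K × Fin W, |idl (true, z)| ^ p + |idl (false, z)| ^ p =
        A z.1 ^ p - if mid z then A z.1 ^ p else 0 := by
      intro z
      simp only [idl, A]
      split_ifs <;> simp [Real.zero_rpow hp0.ne'] <;> contradiction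
    simp only [I, Fintype.sum_prod_type' (f := fun s z => |idl (s, z)| ^ p)]
    rw [Fintype.sum_bool, ← Finset.sum_add_distrib, Finset.sum_congr rfl (fun z _ => this z),
      Finset.sum_sub_distrib]
    congr 1
    rw [Fintype.sum_prod_type]
    simp [← Finset.mul_sum, hsumA]
  have hidl_up : lpn p idl ≤ (W:ℝ) ^ p⁻¹ * dd := by
    rw [lpn, ← Real.rpow_rpow_inv hdd0 hp0.ne', ← Real.mul_rpow hW0.le (by positivity)]
    refine Real.rpow_le_rpow (lpn_sum_nonneg _) ?_ (by positivity)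
    rw [hidl, sub_le_self_iff]
    exact Finset.sum_nonneg fun z _ => by
      split_ifs
      exacts [Real.rpow_nonneg (hA0 _) _, le_rfl]
  have hidl_lo : (W:ℝ) ^ p⁻¹ * dd - dd ≤ lpn p idl := by
    have h1 : ((W:ℝ) - 1) ^ p⁻¹ * dd ≤ lpn p idl := by
      rw [lpn, ← Real.rpow_rpow_inv hdd0 hp0.ne',
        ← Real.mul_rpow (by linarith [(show (1:ℝ) ≤ W by exact_mod_cast hW)]) (by positivity)]
      refine Real.rpow_le_rpow ?_ ?_ (by positivity)
      · exact mul_nonneg (by linarith [(show (1:ℝ) ≤ W by exact_mod_cast hW)]) (by positivity)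
      · rw [hidl]; linarith
    have h2 : (W:ℝ) ^ p⁻¹ ≤ ((W:ℝ) - 1) ^ p⁻¹ + 1 := by
      have hW1 : (0:ℝ) ≤ (W:ℝ) - 1 := by linarith [(show (1:ℝ) ≤ W by exact_mod_cast hW)]
      have := Real.rpow_add_le_add_rpow hW1 zero_le_one (by positivity : 0 ≤ p⁻¹)
        (inv_le_one_of_one_le₀ hp)
      simpa using this
    have := mul_le_mul_of_nonneg_right h2 hdd0
    linarith
  have hact : (((∑ z, |l i z - l j z| ^ p) + ∑ z, |h i z - h j z| ^ p) / W) ^ p⁻¹
      = lpn p act / (W:ℝ) ^ p⁻¹ := by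
    rw [lpn, ← Real.div_rpow (lpn_sum_nonneg _) hW0.le]
    congr 2
    simp only [I, act, Fintype.sum_prod_type'
      (f := fun s z => |if s = true then l i z - l j z else h i z - h j z| ^ p)]
    simp
  rw [hact]
  have hd : |lpn p act - (W:ℝ) ^ p⁻¹ * dd| ≤
      320 * dd * Φ ^ p⁻¹ / m + 16 / m * (W:ℝ) ^ p⁻¹ * dd + 5 * dd := by
    rw [abs_le]
    have := abs_le.1 hkey
    constructor <;> linarith
  rw [show lpn p act / (W:ℝ) ^ p⁻¹ - dd = (lpn p act - (W:ℝ) ^ p⁻¹ * dd) / (W:ℝ) ^ p⁻¹ by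
    field_simp, abs_div, abs_of_pos hWr, div_le_iff₀ hWr]
  refine hd.trans ?_
  have hΦr : 0 ≤ Φ ^ p⁻¹ := Real.rpow_nonneg hΦ _
  have e : 400 * (Φ ^ p⁻¹ / (m * (W:ℝ) ^ p⁻¹) + 1 / m + ((W:ℝ) ^ p⁻¹)⁻¹) * dd * (W:ℝ) ^ p⁻¹ =
      400 * dd * Φ ^ p⁻¹ / m + 400 / m * (W:ℝ) ^ p⁻¹ * dd + 400 * dd := by
    field_simp
  rw [e]
  have t1 : 0 ≤ dd * Φ ^ p⁻¹ / m := by positivity
  have t2 : 0 ≤ 1 / (m:ℝ) * (W:ℝ) ^ p⁻¹ * dd := by positivity
  have s1 : 320 * dd * Φ ^ p⁻¹ / m = 320 * (dd * Φ ^ p⁻¹ / m) := by ring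
  have s2 : 400 * dd * Φ ^ p⁻¹ / m = 400 * (dd * Φ ^ p⁻¹ / m) := by ring
  have s3 : 16 / m * (W:ℝ) ^ p⁻¹ * dd = 16 * (1 / (m:ℝ) * (W:ℝ) ^ p⁻¹ * dd) := by ring
  have s4 : 400 / m * (W:ℝ) ^ p⁻¹ * dd = 400 * (1 / (m:ℝ) * (W:ℝ) ^ p⁻¹ * dd) := by ring
  linarith

end Vale.Agent.P249.Every
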