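import Vale.Agent.P249.Every.Split
import Vale.Agent.P249.Every.Scheme
import Vale.Agent.P249.Every.Compress

/-!
One round of dimension reduction: from `n ^ e` coordinates to `n ^ (e (1 - κ))`.
-/

namespace Vale.Agent.P249.Every

open Finset Filter Topology

/-- The saving in the exponent. -/
noncomputable def saving (p : ℝ) : ℝ := 1 / (16 * (p + 2))

theorem log_rpow_le {r s : ℝ} (hr : 0 ≤ r) (hs : 0 < s) : ∃ C : ℝ, 0 < C ∧
    ∀ x : ℝ, 1 ≤ x → Real.log x ^ r ≤ C * x ^ s := by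
  refine ⟨((r + 1) / s) ^ r, by positivity, fun x hx => ?_⟩
  have hs' : 0 < s / (r + 1) := by positivity
  refine (Real.rpow_le_rpow (Real.log_nonneg hx) (Real.log_le_rpow_div (by linarith) hs') hr).trans ?_
  rw [div_div_eq_mul_div, mul_div_assoc, Real.mul_rpow (by positivity) (by positivity),
    ← Real.rpow_mul (by linarith), mul_comm]
  refine mul_le_mul_of_nonneg_left (Real.rpow_le_rpow_of_exponent_le hx ?_) (by positivity)
  rw [div_mul_eq_mul_div, div_le_iff₀ (by positivity)]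
  nlinarith

theorem abs_rpow_sub_le {S T q : ℝ} (hS : 0 ≤ S) (hT : 0 ≤ T) (hq0 : 0 ≤ q) (hq1 : q ≤ 1) :
    |S ^ q - T ^ q| ≤ |S - T| ^ q := by
  have key : ∀ a b : ℝ, 0 ≤ a → 0 ≤ b → a ^ q ≤ b ^ q + |a - b| ^ q := fun a b ha hb =>
    (Real.rpow_le_rpow ha (by linarith [le_abs_self (a - b)]) hq0).trans
      (Real.rpow_add_le_add_rpow hb (abs_nonneg _) hq0 hq1)
  rw [abs_le]
  have h1 := key S T hS hT
  have h2 := key T S hT hS
  rw [abs_sub_comm T S] at h2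
  constructor <;> linarith

/-- Combining the two compressed parts. -/
theorem combine_err {p ε η W dd T₁ T₂ U₁ U₂ : ℝ} (hp : 1 ≤ p) (hε : 0 < ε) (hε1 : ε ≤ 1)
    (hη0 : 0 < η) (hηb : η ≤ (ε / 2) ^ p / (2 * (2 ^ p + 1))) (hW1 : 1 ≤ W) (hdd0 : 0 ≤ dd)
    (hT₁0 : 0 ≤ T₁) (hT₂0 : 0 ≤ T₂) (hU₁0 : 0 ≤ U₁) (hU₂0 : 0 ≤ U₂)
    (h1 : |U₁ - T₁| ≤ η * T₁) (h2 : |U₂ - T₂| ≤ η * (dd ^ p + T₂))
    (hT : |((T₂ + T₁) / W) ^ p⁻¹ - dd| ≤ ε / 4 * dd) :
    |((U₁ + U₂) / W) ^ p⁻¹ - dd| ≤ ε * dd := by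
  have hp0 : 0 < p := by linarith
  have hp1 := hp
  have hW0 : 0 < W := by linarith
  have h2p : (0:ℝ) < 2 ^ p := by positivity
  have hTle : (T₂ + T₁) / W ≤ (2:ℝ) ^ p * dd ^ p := by
    have h1 : ((T₂ + T₁) / W) ^ p⁻¹ ≤ 2 * dd := by
      have h5 := (abs_le.1 hT).2
      have : ε / 4 * dd ≤ 1 * dd := mul_le_mul_of_nonneg_right (by linarith) hdd0
      linarith
    have := Real.rpow_le_rpow (by positivity) h1 hp0.le
    rwa [Real.rpow_inv_rpow (by positivity) hp0.ne', Real.mul_rpow (by norm_num) hdd0] at this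
  have hdiff : |(U₁ + U₂) / W - (T₂ + T₁) / W| ≤ (ε / 2) ^ p * dd ^ p := by
    rw [← sub_div, abs_div, abs_of_pos hW0]
    have hdp : 0 ≤ dd ^ p := by positivity
    calc |U₁ + U₂ - (T₂ + T₁)| / W ≤ η * (dd ^ p + (T₂ + T₁)) / W := by
          refine div_le_div_of_nonneg_right ?_ hW0.le
          have := abs_add_le (U₁ - T₁) (U₂ - T₂)
          rw [show U₁ + U₂ - (T₂ + T₁) = (U₁ - T₁) + (U₂ - T₂) by ring]
          linarith
      _ = η * (dd ^ p / W + (T₂ + T₁) / W) := by ring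
      _ ≤ η * ((2 * (2 ^ p + 1)) * dd ^ p) := by
          refine mul_le_mul_of_nonneg_left ?_ hη0.le
          have := div_le_self hdp hW1
          have : 0 ≤ (2:ℝ) ^ p * dd ^ p := by positivity
          linarith
      _ ≤ _ := by
          rw [← mul_assoc]
          refine mul_le_mul_of_nonneg_right ?_ hdp
          exact (le_div_iff₀ (by positivity)).1 hηb
  have h3 := (abs_rpow_sub_le (q := p⁻¹) (by positivity : 0 ≤ (U₁ + U₂) / W)
    (by positivity : 0 ≤ (T₂ + T₁) / W) (by positivity) (inv_le_one_of_one_le₀ hp1)).trans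
    (Real.rpow_le_rpow (abs_nonneg _) hdiff (by positivity))
  rw [Real.mul_rpow (by positivity) (by positivity), Real.rpow_rpow_inv (by positivity) hp0.ne',
    Real.rpow_rpow_inv hdd0 hp0.ne'] at h3
  have := abs_sub_le (((U₁ + U₂) / W) ^ p⁻¹) (((T₂ + T₁) / W) ^ p⁻¹) dd
  have : ε / 4 * dd ≤ ε / 2 * dd := mul_le_mul_of_nonneg_right (by linarith) hdd0
  linarith

/-- The dimension after one round. -/
theorem dim_step {p e B c CΦ CH CS CL σ₀ K n L Φ G : ℝ} (W : ℕ) {a Bn d₁ d₂ : ℕ} (hp : 1 ≤ p)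
    (hc : c = 1 / (8 * (p + 2))) (hc0 : 0 < c) (hc1 : c ≤ 1) (he0 : 0 < e) (hB : 0 < B)
    (hCH : 0 < CH) (hCS : 0 < CS) (hCL : 0 < CL) (hCΦ : 0 < CΦ) (hn : 2 ≤ n)
    (hL : L = Real.log n) (hl1 : 1 ≤ L) (hlogn : Real.log n ^ (2 * (p + 2) * p + 1) ≤ CL * n ^ (e * c / 2))
    (hσ₀ : 0 < σ₀) (hΦ : Φ = CΦ * L ^ (p - σ₀)) (hK1 : 1 ≤ K) (hK : K ≤ B * n ^ e)
    (hBn : Bn = ⌈8 * Φ * K ^ (2 * c)⌉₊ + ⌈K ^ c⌉₊)
    (hlow : (((2:ℝ) ^ a)⁻¹) ^ p ≤ (2:ℝ) ^ (p * W) * K ^ (-c))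
    (hd₁ : (d₁ : ℝ) ≤ CH * (2 * (Bn : ℝ) + 1) ^ (2 * (p + 2)))
    (hd₂ : (d₂ : ℝ) ≤ CS * (K * W * (8 * ((2:ℝ) ^ a)⁻¹) ^ p + 1) * Real.log (n + 2))
    (hG : e * (1 - saving p) ≤ G) :
    (d₁ : ℝ) + d₂ ≤ (CH * (2 * (8 * CΦ + 3) + 1) ^ (2 * (p + 2)) * CL +
      3 * CS * (W * (8:ℝ) ^ p * (2:ℝ) ^ (p * W) + 1) * CL) * (B + 1) * n ^ G := by
  have hn0 : 1 ≤ n := by linarith
  have hp0 : 0 < p := by linarith
  have hL0 : 0 < L := by linarith
  have hΦ0 : 0 ≤ Φ := by rw [hΦ]; positivity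
  set CB := 2 * (8 * CΦ + 3) + 1 with hCB
  have hCB0 : 0 < CB := by rw [hCB]; positivity
  have hKc : K ^ (1 - c) ≤ (B + 1) * n ^ (e * (1 - c)) := by
    refine (Real.rpow_le_rpow (by linarith) hK (by linarith)).trans ?_
    rw [Real.mul_rpow hB.le (by positivity), ← Real.rpow_mul (by linarith)]
    refine mul_le_mul_of_nonneg_right ?_ (by positivity)
    exact (Real.rpow_le_rpow hB.le (by linarith) (by linarith)).trans
      (Real.rpow_le_self_of_one_le (by linarith) (by linarith))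
  have hLpow : L ^ (p - σ₀) ≤ L ^ p := Real.rpow_le_rpow_of_exponent_le hl1 (by linarith)
  have hB2 : 2 * (Bn:ℝ) + 1 ≤ CB * L ^ p * K ^ (2 * c) := by
    have h1 := Nat.ceil_lt_add_one (by positivity : 0 ≤ 8 * Φ * K ^ (2 * c))
    have h2 := Nat.ceil_lt_add_one (by positivity : (0:ℝ) ≤ K ^ c)
    have hK2c : K ^ c ≤ K ^ (2 * c) :=
      Real.rpow_le_rpow_of_exponent_le hK1 (by linarith)
    have hLp : 1 ≤ L ^ p := Real.one_le_rpow hl1 hp0.le
    have hKone : 1 ≤ K ^ (2 * c) := Real.one_le_rpow hK1 (by positivity)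
    have hone : 1 ≤ L ^ p * K ^ (2 * c) := one_le_mul_of_one_le_of_one_le hLp hKone
    have hle : K ^ (2 * c) ≤ L ^ p * K ^ (2 * c) :=
      le_mul_of_one_le_left (by positivity) hLp
    have hΦle : Φ * K ^ (2 * c) ≤ CΦ * (L ^ p * K ^ (2 * c)) := by
      rw [hΦ, mul_assoc]; gcongr
    have hfin : 2 * (Bn:ℝ) + 1 ≤ (16 * CΦ + 7) * (L ^ p * K ^ (2 * c)) := by
      rw [hBn]; push_cast; linarith
    rw [hCB, mul_assoc]; linarith
  have hd1 : (d₁:ℝ) ≤ CH * CB ^ (2 * (p + 2)) * (L ^ (2 * (p + 2) * p) * K ^ (1 - c)) := by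
    refine hd₁.trans ?_
    refine (mul_le_mul_of_nonneg_left (Real.rpow_le_rpow (by positivity) hB2 (by positivity))
      hCH.le).trans ?_
    rw [Real.mul_rpow (by positivity) (by positivity), Real.mul_rpow hCB0.le (by positivity),
      ← Real.rpow_mul hL0.le, ← Real.rpow_mul (by linarith : (0:ℝ) ≤ K)]
    rw [mul_assoc (CB ^ (2 * (p + 2))), ← mul_assoc CH]
    refine mul_le_mul_of_nonneg_left (mul_le_mul (le_of_eq (by ring_nf))
      (Real.rpow_le_rpow_of_exponent_le hK1 ?_) (by positivity) (by positivity)) (by positivity)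
    have : c * (2 * (2 * (p + 2))) = 1 / 2 := by rw [hc]; field_simp; ring
    nlinarith
  have hd2 : (d₂:ℝ) ≤ 3 * CS * (W * (8:ℝ) ^ p * (2:ℝ) ^ (p * W) + 1) *
      (L * K ^ (1 - c)) := by
    refine hd₂.trans ?_
    have hlog3 : Real.log (n + 2) ≤ 3 * L := by
      have h3 : n + 2 ≤ n ^ 3 := by
        nlinarith [mul_le_mul hn hn (by norm_num : (0:ℝ) ≤ 2) (by linarith)]
      have := Real.log_le_log (by positivity) h3
      rw [Real.log_pow, ← hL] at this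
      exact_mod_cast this
    have h1 : (K * (W:ℝ)) * (8 * ((2:ℝ) ^ a)⁻¹) ^ p + 1 ≤
        (W * (8:ℝ) ^ p * (2:ℝ) ^ (p * W) + 1) * K ^ (1 - c) := by
      rw [Real.mul_rpow (by norm_num) (by positivity), add_mul, one_mul]
      refine add_le_add ?_ (Real.one_le_rpow hK1 (by linarith))
      calc K * W * ((8:ℝ) ^ p * (((2:ℝ) ^ a)⁻¹) ^ p)
          ≤ K * W * ((8:ℝ) ^ p * ((2:ℝ) ^ (p * W) * K ^ (-c))) := by gcongr
        _ = _ := by
          rw [sub_eq_add_neg, Real.rpow_add (by linarith), Real.rpow_one]; ring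
    calc CS * ((K * (W:ℝ)) * (8 * ((2:ℝ) ^ a)⁻¹) ^ p + 1) *
          Real.log (n + 2)
        ≤ CS * ((W * (8:ℝ) ^ p * (2:ℝ) ^ (p * W) + 1) * K ^ (1 - c)) * (3 * L) :=
          mul_le_mul (mul_le_mul_of_nonneg_left h1 hCS.le) hlog3
            (Real.log_nonneg (by linarith)) (by positivity)
      _ = _ := by ring
  have hpoly : ∀ r, r ≤ 2 * (p + 2) * p + 1 →
      L ^ r * K ^ (1 - c) ≤ CL * ((B + 1) * n ^ G) := by
    intro r hr
    have h1 := (Real.rpow_le_rpow_of_exponent_le hl1 hr).trans (hL ▸ hlogn)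
    refine (mul_le_mul h1 hKc (by positivity) (by positivity)).trans ?_
    rw [mul_assoc CL, mul_left_comm (n ^ (e * c / 2)), ← Real.rpow_add (by linarith)]
    refine mul_le_mul_of_nonneg_left (mul_le_mul_of_nonneg_left
      (Real.rpow_le_rpow_of_exponent_le hn0 ((le_of_eq ?_).trans hG))
      (by linarith)) hCL.le
    rw [saving, hc]; field_simp; ring
  have h2 := mul_le_mul_of_nonneg_left (hpoly (2 * (p + 2) * p) (by linarith))
    (by positivity : 0 ≤ CH * CB ^ (2 * (p + 2)))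
  have h3 := mul_le_mul_of_nonneg_left (hpoly 1 (by nlinarith))
    (by positivity : 0 ≤ 3 * CS * (W * (8:ℝ) ^ p * (2:ℝ) ^ (p * W) + 1))
  rw [Real.rpow_one] at h3
  linarith

/-- The two powers of two attached to the windows. -/
theorem level_bounds {p θ c K : ℝ} (hp : 0 < p) (W m : ℕ) (hK : 0 < K) (hc : p * W * θ = c)
    (hlo : θ * (Real.log K / Real.log 2) - 1 ≤ m) (hhi : (m : ℝ) ≤ θ * (Real.log K / Real.log 2)) :
    ((2:ℝ) ^ (W * m + W * m)) ^ p ≤ K ^ (2 * c) ∧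
      (((2:ℝ) ^ (W * m))⁻¹) ^ p ≤ (2:ℝ) ^ (p * W) * K ^ (-c) := by
  set μ := Real.log K / Real.log 2 with hμ
  have hK2 : K = (2:ℝ) ^ μ := by
    rw [hμ, Real.rpow_def_of_pos (by norm_num),
      mul_div_cancel₀ _ (Real.log_pos one_lt_two).ne', Real.exp_log hK]
  constructor
  · rw [hK2, ← Real.rpow_natCast 2 (W * m + W * m), ← Real.rpow_mul (by norm_num),
      ← Real.rpow_mul (by norm_num)]
    refine Real.rpow_le_rpow_of_exponent_le one_le_two ?_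
    rw [← hc]; push_cast
    nlinarith [mul_le_mul_of_nonneg_left hhi (by positivity : (0:ℝ) ≤ 2 * W * p)]
  · rw [hK2, ← Real.rpow_natCast 2 (W * m), ← Real.rpow_neg (by norm_num),
      ← Real.rpow_mul (by norm_num), ← Real.rpow_mul (by norm_num), ← Real.rpow_add (by norm_num)]
    refine Real.rpow_le_rpow_of_exponent_le one_le_two ?_
    rw [← hc]; push_cast
    nlinarith [mul_le_mul_of_nonneg_left hlo (by positivity : (0:ℝ) ≤ W * p)]

/-- The splitting error for these parameters. -/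
theorem err_small {p ε CΦ L σ σ₀ τ Φ M Wr : ℝ} (hp : 0 < p) (hε : 0 < ε) (hCΦ : 0 < CΦ)
    (hτ : 0 < τ) (hl1 : 1 ≤ L) (hσ : σ ≤ σ₀) (hΦ : Φ = CΦ * L ^ (p - σ₀))
    (hlσ : L ^ (-(σ / p)) ≤ τ * (ε / (4800 * CΦ ^ p⁻¹))) (hlm : 4800 / ε ≤ τ * L)
    (hmL : τ * L ≤ M) (hW : 1 ≤ Wr) (hWε : Wr⁻¹ ≤ ε / 4800) :
    400 * (Φ ^ p⁻¹ / (M * Wr) + 1 / M + Wr⁻¹) ≤ ε / 4 := by
  have hL0 : 0 < L := by linarith
  have hpos : 0 < τ * L := by positivity
  have hM : 0 < M := by linarith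
  have hΦ0 : 0 ≤ Φ := by rw [hΦ]; positivity
  have e1 : Φ ^ p⁻¹ / (M * Wr) ≤ ε / 4800 := by
    calc Φ ^ p⁻¹ / (M * Wr) ≤ (CΦ * L ^ (p - σ)) ^ p⁻¹ / (τ * L * 1) := by
          refine div_le_div₀ (by positivity) ?_ (by positivity)
            (mul_le_mul hmL hW zero_le_one hM.le)
          refine Real.rpow_le_rpow hΦ0 ?_ (by positivity)
          rw [hΦ]
          exact mul_le_mul_of_nonneg_left (Real.rpow_le_rpow_of_exponent_le hl1 (by linarith)) hCΦ.le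
      _ = CΦ ^ p⁻¹ * L ^ (-(σ / p)) / τ := by
          rw [Real.mul_rpow hCΦ.le (by positivity), ← Real.rpow_mul hL0.le,
            show (p - σ) * p⁻¹ = -(σ / p) + 1 by field_simp; ring,
            Real.rpow_add hL0, Real.rpow_one]
          field_simp
      _ ≤ CΦ ^ p⁻¹ * (τ * (ε / (4800 * CΦ ^ p⁻¹))) / τ := by gcongr
      _ = _ := by field_simp
  have e2 : 1 / M ≤ ε / 4800 := by
    rw [div_le_div_iff₀ hM (by norm_num)]
    have := (div_le_iff₀ hε).1 (hlm.trans hmL)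
    linarith
  linarith

theorem exists_step {p ε δ e B : ℝ} (hp : 1 < p) (hε : 0 < ε) (hε1 : ε ≤ 1) (hδ : 0 < δ)
    (hB : 0 < B) :
    ∃ C : ℝ, 0 < C ∧ ∀ n K : ℕ, 2 ≤ n → (K : ℝ) ≤ B * (n : ℝ) ^ e → ∀ x : Fin n → Fin K → ℝ,
      ∃ d : ℕ, (d : ℝ) ≤ C * (n : ℝ) ^ max δ (e * (1 - saving p)) ∧
        ∃ f : Fin n → Fin d → ℝ, ∀ i j,
          |pdist p (f i) (f j) - pdist p (x i) (x j)| ≤ ε * pdist p (x i) (x j) := by
  have hp1 : 1 ≤ p := hp.le
  have hp0 : 0 < p := by linarith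
  set ex := max δ (e * (1 - saving p)) with hex
  have hex0 : 0 < ex := lt_max_of_lt_left hδ
  have hn1 : ∀ n : ℕ, 2 ≤ n → (1:ℝ) ≤ n := fun n hn => by exact_mod_cast (by omega : 1 ≤ n)
  have hid : ∀ (n K : ℕ) (x : Fin n → Fin K → ℝ) (i j : Fin n),
      |pdist p (x i) (x j) - pdist p (x i) (x j)| ≤ ε * pdist p (x i) (x j) := fun n K x i j => by
    rw [sub_self, abs_zero]; exact mul_nonneg hε.le (pdist_nonneg _ _)
  by_cases he : e ≤ δ
  · refine ⟨B, hB, fun n K hn hK x => ⟨K, hK.trans (mul_le_mul_of_nonneg_left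
      (Real.rpow_le_rpow_of_exponent_le (hn1 n hn) (he.trans (le_max_left _ _))) hB.le),
      x, hid n K x⟩⟩
  rw [not_le] at he
  have he0 : 0 < e := hδ.trans he
  set c := 1 / (8 * (p + 2)) with hc
  have hc0 : 0 < c := by rw [hc]; positivity
  have hc1 : c ≤ 1 := by rw [hc, div_le_one (by positivity)]; linarith
  -- parameters
  obtain ⟨W, hW1, hWε⟩ : ∃ W : ℕ, 1 ≤ W ∧ ((W:ℝ) ^ p⁻¹)⁻¹ ≤ ε / 4800 := by
    have h : Tendsto (fun W : ℕ => ((W:ℝ) ^ p⁻¹)⁻¹) atTop (𝓝 0) :=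
      ((tendsto_rpow_atTop (by positivity)).comp tendsto_natCast_atTop_atTop).inv_tendsto_atTop
    exact ((eventually_ge_atTop 1).and (h.eventually (ge_mem_nhds (by positivity)))).exists
  have hW0 : (0:ℝ) < W := by exact_mod_cast hW1
  set θ := c / (p * W) with hθ
  have hθ0 : 0 < θ := by rw [hθ]; positivity
  set η := min 1 ((ε / 2) ^ p / (2 * (2 ^ p + 1))) with hη
  have hη0 : 0 < η := by rw [hη]; exact lt_min one_pos (by positivity)
  have hη1 : η ≤ 1 := min_le_left _ _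
  obtain ⟨CΦ, σ₀, hCΦ, hσ₀, hscheme⟩ := exists_scheme hp
  set k := ⌈2 / c⌉₊ with hk
  obtain ⟨CH, hCH, hhash⟩ := exists_hash hp1 hη0 hη1 k
  obtain ⟨CS, hCS, hsample⟩ := exists_sample hp1 hη0 hη1
  -- `n` large
  set σ := min σ₀ p with hσdef
  have hσ : 0 < σ := lt_min hσ₀ hp0
  have hlog : Tendsto (fun n : ℕ => Real.log n) atTop atTop :=
    Real.tendsto_log_atTop.comp tendsto_natCast_atTop_atTop
  obtain ⟨N₀, hN₀⟩ : ∃ N₀ : ℕ, ∀ n ≥ N₀, 1 ≤ Real.log n ∧ 4 ≤ θ * δ * Real.log n ∧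
      Real.log n ^ (-(σ / p)) ≤ θ * δ / 2 * (ε / (4800 * CΦ ^ p⁻¹)) ∧
      4800 / ε ≤ θ * δ / 2 * Real.log n ∧ (W : ℝ) ≤ (n:ℝ) ^ δ := by
    have a1 := hlog.eventually (eventually_ge_atTop 1)
    have a2 := (hlog.const_mul_atTop (mul_pos hθ0 hδ)).eventually (eventually_ge_atTop 4)
    have a3 := ((tendsto_rpow_neg_atTop (div_pos hσ hp0)).comp hlog).eventually
      (ge_mem_nhds (by positivity : (0:ℝ) < θ * δ / 2 * (ε / (4800 * CΦ ^ p⁻¹))))
    have a4 := (hlog.const_mul_atTop (by positivity : 0 < θ * δ / 2)).eventually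
      (eventually_ge_atTop (4800 / ε))
    have a5 := ((tendsto_rpow_atTop hδ).comp tendsto_natCast_atTop_atTop).eventually
      (eventually_ge_atTop (W:ℝ))
    exact eventually_atTop.1 (a1.and (a2.and (a3.and (a4.and a5))))
  obtain ⟨CL, hCL, hlogn⟩ := log_rpow_le (r := 2 * (p + 2) * p + 1)
    (by positivity) (by positivity : 0 < e * c / 2)
  set CB := 2 * (8 * CΦ + 3) + 1 with hCB
  have hCB0 : 0 < CB := by rw [hCB]; positivity
  set Cbig := CH * CB ^ (2 * (p + 2)) * CL +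
    3 * CS * (W * (8:ℝ) ^ p * (2:ℝ) ^ (p * W) + 1) * CL with hCbig
  refine ⟨B * (N₀ + 1 : ℝ) ^ e + (N₀ + 1) + Cbig * (B + 1), by positivity, fun n K hn hK x => ?_⟩
  have hn0 : (1:ℝ) ≤ n := hn1 n hn
  have hne0 : 1 ≤ (n:ℝ) ^ ex := Real.one_le_rpow hn0 hex0.le
  by_cases hsmall : n < N₀ ∨ (K:ℝ) < (n:ℝ) ^ δ
  · refine ⟨K, ?_, x, hid n K x⟩
    rcases hsmall with hsm | hsm
    · calc (K:ℝ) ≤ B * (n:ℝ) ^ e := hK
        _ ≤ B * (N₀ + 1 : ℝ) ^ e := by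
          refine mul_le_mul_of_nonneg_left (Real.rpow_le_rpow (by linarith) ?_ he0.le) hB.le
          exact_mod_cast (by omega : n ≤ N₀ + 1)
        _ ≤ B * (N₀ + 1 : ℝ) ^ e + (N₀ + 1) + Cbig * (B + 1) := by
          have : 0 ≤ Cbig * (B + 1) := by positivity
          have : (0:ℝ) ≤ N₀ := Nat.cast_nonneg _
          linarith
        _ ≤ _ := le_mul_of_one_le_right (by positivity) hne0
    · refine hsm.le.trans ((Real.rpow_le_rpow_of_exponent_le hn0 (le_max_left _ _)).trans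
        (le_mul_of_one_le_left (by positivity) ?_))
      have : 0 ≤ Cbig * (B + 1) := by positivity
      have : 0 ≤ B * (N₀ + 1 : ℝ) ^ e := by positivity
      have : (0:ℝ) ≤ N₀ := Nat.cast_nonneg _
      linarith
  rw [not_or, not_lt, not_lt] at hsmall
  obtain ⟨hnN, hKn⟩ := hsmall
  obtain ⟨hl1, hl4, hlσ, hlm, hlW⟩ := hN₀ n hnN
  set L := Real.log n with hL
  have hL0 : 0 < L := by linarith
  have hK1 : (1:ℝ) ≤ K := (Real.one_le_rpow hn0 hδ.le).trans hKn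
  set μ := Real.log K / Real.log 2 with hμ
  have hlog2 : 0 < Real.log 2 := Real.log_pos one_lt_two
  have hlog21 : Real.log 2 ≤ 1 := by
    have := Real.log_le_sub_one_of_pos (show (0:ℝ) < 2 by norm_num); linarith
  have hμL : δ * L ≤ μ := by
    rw [hμ, le_div_iff₀ hlog2]
    have := Real.log_le_log (by positivity) hKn
    rw [Real.log_rpow (by linarith)] at this
    calc δ * L * Real.log 2 ≤ δ * L * 1 := by gcongr
      _ ≤ _ := by rw [mul_one]; exact this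
  set m := ⌊θ * μ⌋₊ with hm
  have hθμ : θ * δ * L ≤ θ * μ := by rw [mul_assoc]; exact mul_le_mul_of_nonneg_left hμL hθ0.le
  have hmlo : θ * μ - 1 ≤ m := by linarith [Nat.lt_floor_add_one (θ * μ)]
  have hmhi : (m:ℝ) ≤ θ * μ := Nat.floor_le (by linarith)
  have hmL : θ * δ / 2 * L ≤ m := by linarith
  have hm1 : 1 ≤ m := Nat.le_floor (by push_cast; linarith)
  set a := W * m with ha
  set Φ := CΦ * L ^ (p - σ₀) with hΦ
  have hΦ0 : 0 ≤ Φ := by positivity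
  have hS := hscheme n K hn x
  obtain ⟨l, h, hl, hh, hsplit⟩ := exists_split (x := x) hp1 (Φ := Φ) hS a m W hm1 hW1
  -- powers of two
  have hWθ : p * W * θ = c := by rw [hθ]; field_simp
  obtain ⟨hup, hlow⟩ := level_bounds (θ := θ) (c := c) hp0 W m (by linarith : (0:ℝ) < K) hWθ
    hmlo hmhi
  -- hashing
  set Bn := ⌈8 * Φ * (K:ℝ) ^ (2 * c)⌉₊ + ⌈(K:ℝ) ^ c⌉₊ with hBn
  have hBlo : (K:ℝ) ^ c ≤ 2 * Bn + 1 := by
    have := Nat.le_ceil ((K:ℝ) ^ c)
    have : (0:ℝ) ≤ (⌈8 * Φ * (K:ℝ) ^ (2 * c)⌉₊ : ℕ) := Nat.cast_nonneg _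
    rw [hBn]; push_cast; linarith
  have hcard : Fintype.card (Fin K × Fin W) ≤ (2 * Bn + 1) ^ k := by
    have h1 : ((K * W : ℕ) : ℝ) ≤ (2 * (Bn:ℝ) + 1) ^ k := by
      push_cast
      calc (K:ℝ) * W ≤ (K:ℝ) * K := by gcongr; exact_mod_cast hlW.trans hKn
        _ = (K:ℝ) ^ (2:ℝ) := by rw [Real.rpow_two]; ring
        _ ≤ (K:ℝ) ^ (c * k) := by
          refine Real.rpow_le_rpow_of_exponent_le hK1 ?_
          have := Nat.le_ceil (2 / c)
          rw [div_le_iff₀ hc0] at this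
          rw [hk]; linarith
        _ = ((K:ℝ) ^ c) ^ k := by rw [Real.rpow_mul (by linarith), Real.rpow_natCast]
        _ ≤ _ := pow_le_pow_left₀ (by positivity) hBlo k
    simp only [Fintype.card_prod, Fintype.card_fin]
    exact_mod_cast h1
  obtain ⟨d₁, hd₁, f₁, hf₁⟩ := hhash n Bn (Fin K × Fin W) hcard h (fun i S hSne => by
    have := (hh i S hSne).trans (mul_le_mul_of_nonneg_left hup (by positivity))
    have h2 := this.trans (Nat.le_ceil _)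
    have h3 : S.card ≤ ⌈8 * Φ * (K:ℝ) ^ (2 * c)⌉₊ := by exact_mod_cast h2
    exact h3.trans (Nat.le_add_right _ _))
  obtain ⟨d₂, hd₂, f₂, hf₂⟩ := hsample n (Fin K × Fin W) (8 * ((2:ℝ) ^ a)⁻¹) (by positivity)
    (fun i j => pdist p (x i) (x j)) l (fun i j => pdist_nonneg _ _) hl
  set s := ((W:ℝ) ^ p⁻¹)⁻¹ with hs
  have hs0 : 0 < s := by rw [hs]; positivity
  have hsp : s ^ p = (W:ℝ)⁻¹ := by
    rw [hs, Real.inv_rpow (by positivity), Real.rpow_inv_rpow hW0.le hp0.ne']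
  refine ⟨d₁ + d₂, ?_, fun i => Fin.append (fun q => s * f₁ i q) (fun q => s * f₂ i q), fun i j => ?_⟩
  · -- dimension
    have h := dim_step (e := e) (G := ex) W hp1 hc hc0 hc1 he0 hB hCH hCS hCL hCΦ
      (by exact_mod_cast hn : (2:ℝ) ≤ (n:ℝ)) hL hl1 (hlogn n hn0) hσ₀ hΦ hK1 hK hBn hlow hd₁
      (hd₂.trans (le_of_eq (by simp [ha, mul_assoc]))) (le_max_right _ _)
    have h0 : 0 ≤ (B * (N₀ + 1 : ℝ) ^ e + (N₀ + 1)) * (n:ℝ) ^ ex := by positivity
    push_cast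
    rw [hCbig]
    linarith
  · -- distortion
    set dd := pdist p (x i) (x j) with hdd
    have hdd0 : 0 ≤ dd := pdist_nonneg _ _
    have hsp' := hsplit i j
    rw [← hdd] at hsp'
    set T₂ := ∑ z, |l i z - l j z| ^ p with hT₂
    set T₁ := ∑ z, |h i z - h j z| ^ p with hT₁
    have hT₁0 : 0 ≤ T₁ := lpn_sum_nonneg _
    have hT₂0 : 0 ≤ T₂ := lpn_sum_nonneg _
    set U₁ := ∑ q, |f₁ i q - f₁ j q| ^ p with hU₁
    set U₂ := ∑ q, |f₂ i q - f₂ j q| ^ p with hU₂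
    have hU₁0 : 0 ≤ U₁ := lpn_sum_nonneg _
    have hU₂0 : 0 ≤ U₂ := lpn_sum_nonneg _
    have ef : pdist p (Fin.append (fun q => s * f₁ i q) (fun q => s * f₂ i q))
        (Fin.append (fun q => s * f₁ j q) (fun q => s * f₂ j q)) = ((U₁ + U₂) / W) ^ p⁻¹ := by
      rw [pdist, Fin.sum_univ_add]
      simp only [Fin.append_left, Fin.append_right, ← mul_sub, abs_mul, abs_of_pos hs0,
        Real.mul_rpow hs0.le (abs_nonneg _), ← Finset.mul_sum, hsp, ← mul_add]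
      rw [div_eq_inv_mul]
    rw [ef]
    have herr := err_small (Φ := Φ) (M := (m:ℝ)) hp0 hε hCΦ (by positivity : 0 < θ * δ / 2) hl1
      (min_le_left σ₀ p) hΦ hlσ hlm hmL
      (Real.one_le_rpow (by exact_mod_cast hW1) (by positivity)) hWε
    have hT : |((T₂ + T₁) / W) ^ p⁻¹ - dd| ≤ ε / 4 * dd :=
      hsp'.trans (mul_le_mul_of_nonneg_right herr hdd0)
    exact combine_err hp1 hε hε1 hη0 (min_le_right _ _) (by exact_mod_cast hW1) hdd0 hT₁0 hT₂0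
      hU₁0 hU₂0 (hf₁ i j) (hf₂ i j) hT

end Vale.Agent.P249.Every
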